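import Vale.Agent.P233.H236.Signed

/-!
# The curvature of Alexandrov spaces is measure-valued
-/

open MeasureTheory Filter Topology
open scoped ENNReal NNReal InnerProductSpace

universe u

namespace Vale.Agent.P233.H236

open Vale.Agent.P233

set_option linter.unusedSectionVars false

variable {M : Type u} [MetricSpace M] [MeasurableSpace M] [BorelSpace M]
  [SecondCountableTopology M] {m : Measure M}

section hilb

variable {H : Type u} [NormedAddCommGroup H] [InnerProductSpace ℝ H]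

/-- the value of Gigli's functional on functions and on classes -/
theorem curvEq_iff {κ : ℝ} (hC : IsGamma (sob m)) (hB : (sob m).BEi κ) {ι : T.VF M → H}
    (hι : (T.sob m).IsL2TM ι)
    (hcov : ∀ X' Y' : List ((M →ₘ[m] ℝ) × (M →ₘ[m] ℝ)), (sob m).IsTestV X' → (sob m).IsTestV Y' →
      (∃ V, (sob m).IsCov (fun X' => ι (coeV X')) X' Y' V) ∧
      (∃ V, (sob m).IsCovT (fun X' => ι (coeV X')) X' Y' V))
    {X Y Z W : T.VF M} {X' Y' Z' W' : List ((M →ₘ[m] ℝ) × (M →ₘ[m] ℝ))} (hX : RV X X')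
    (hY : RV Y Y') (hZ : RV Z Z') (hW : RV W W') {f : M → ℝ} {F : M →ₘ[m] ℝ} (hf : R f F)
    (hF : F ∈ (sob m).Test) {r : ℝ} :
    (T.sob m).CurvEq ι X Y Z W f r ↔ r = (sob m).curv (fun X' => ι (coeV X')) X' Y' Z' W' F := by
  have hιS : (S.sob m).IsL2TM ι := hι
  have hV : RV (T.Calc.mul f W) (Calc.mulV F W') := RV_mulV hC hB hW hf hF
  have hcovT : ∀ {X Y : T.VF M} {X' Y' : List ((M →ₘ[m] ℝ) × (M →ₘ[m] ℝ))}, RV X X' → RV Y Y' →
      (T.sob m).IsCov ι X Y ((sob m).cov (fun X' => ι (coeV X')) X' Y') := by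
    intro X Y X' Y' hX hY
    have h1 := (hcov X' Y' hX.isTestV hY.isTestV).1
    have h2 : (sob m).IsCov (fun X' => ι (coeV X')) X' Y'
        ((sob m).cov (fun X' => ι (coeV X')) X' Y') := by
      unfold Calc.cov
      rw [dif_pos h1]
      exact h1.choose_spec
    exact ((rep_cov hC hB hιS hX hY).1 _).2 h2
  have hG : ∀ V, (T.sob m).TestV V →
      ⟪(sob m).covT (fun X' => ι (coeV X')) Z' (Calc.mulV F W'), ι V⟫_ℝ
        = (T.sob m).int ((T.sob m).nab V Z (T.Calc.mul f W)) := by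
    have h1 := (hcov Z' _ hZ.isTestV hV.isTestV).2
    have h2 : (sob m).IsCovT (fun X' => ι (coeV X')) Z' (Calc.mulV F W')
        ((sob m).covT (fun X' => ι (coeV X')) Z' (Calc.mulV F W')) := by
      unfold Calc.covT
      rw [dif_pos h1]
      exact h1.choose_spec
    exact ((rep_covT hC hB hιS hZ hV).1 _).2 h2
  have e1 : (T.sob m).int (fun x => f x * (T.sob m).nab Y Z W x * (T.sob m).dv X x)
      = ∫ x, (F * (sob m).nab Y' Z' W' * (sob m).dv X') x ∂m :=
    R.int ((hf.mul (RV.nab hC hB hY hZ hW)).mul (hX.dv hC))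
  have e2 : (T.sob m).int (fun x => f x * (T.sob m).nab X Z W x * (T.sob m).dv Y x)
      = ∫ x, (F * (sob m).nab X' Z' W' * (sob m).dv Y') x ∂m :=
    R.int ((hf.mul (RV.nab hC hB hX hZ hW)).mul (hY.dv hC))
  have huniq : ∀ {V V' : H}, (∀ X, (T.sob m).TestV X → ⟪V, ι X⟫_ℝ = ⟪V', ι X⟫_ℝ) → V = V' := by
    intro V V' h
    exact eq_of_reps (isL2TM_coe hC hιS) fun X hX => h _ (RV_coeV hX).testV
  constructor
  · rintro ⟨A, B, D, E, F₁, F₂, G, hA, hB', hD, hE, hF1, hF2, hG', hr⟩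
    have a1 := huniq fun V hV' => (hA V hV').trans (hcovT hX hV V hV').symm
    have a2 := huniq fun V hV' => (hB' V hV').trans (hcovT hY hZ V hV').symm
    have a3 := huniq fun V hV' => (hD V hV').trans (hcovT hY hV V hV').symm
    have a4 := huniq fun V hV' => (hE V hV').trans (hcovT hX hZ V hV').symm
    have a5 := huniq fun V hV' => (hF1 V hV').trans (hcovT hX hY V hV').symm
    have a6 := huniq fun V hV' => (hF2 V hV').trans (hcovT hY hX V hV').symm
    have a7 := huniq fun V hV' => (hG' V hV').trans (hG V hV').symm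
    rw [hr, a1, a2, a3, a4, a5, a6, a7, e1, e2]
    rfl
  · rintro rfl
    refine ⟨_, _, _, _, _, _, _, hcovT hX hV, hcovT hY hZ, hcovT hY hV, hcovT hX hZ, hcovT hX hY,
      hcovT hY hX, hG, ?_⟩
    rw [e1, e2]
    rfl

end hilb

theorem exists_cutData' [ProperSpace M] [m.IsOpenPosMeasure]
    (hfin : ∀ (x : M) (r : ℝ), m (Metric.ball x r) < ∞) (hC : IsGamma (sob m))
    {K N : ℝ} (hN : 0 < N) (hBN : (sob m).BE K N) :
    ∃ (χ : ℕ → M →ₘ[m] ℝ) (χ' : ℕ → M → ℝ), CutData χ χ' := by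
  have hB : (sob m).BEi K := hC.bei hN hBN
  rcases isEmpty_or_nonempty M with hM | ⟨⟨x₀⟩⟩
  · have h0 : CR (m := m) (fun _ : M => 0) 0 :=
      ⟨continuous_const, zero_ae.symm, hC.test_zero hB⟩
    have he : ∀ f : M → ℝ, f = fun _ => 0 := fun f => funext fun x => (hM.false x).elim
    refine ⟨fun _ => 0, fun _ _ => 0, ⟨fun _ => hC.test_zero hB, fun _ => ?_, ?_, fun _ => 0,
      tendsto_const_nhds, fun _ => ?_⟩, fun _ => h0, ?_⟩
    · exact Eventually.of_forall fun x => (hM.false x).elim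
    · exact Eventually.of_forall fun x => (hM.false x).elim
    · exact Eventually.of_forall fun x => (hM.false x).elim
    · have hall : ∀ f : M → ℝ, f ∈ {f : M → ℝ | ∃ F : M →ₘ[m] ℝ, CR f F} := fun f => by
        rw [he f]; exact ⟨0, h0⟩
      refine ⟨hall _, fun _ _ _ _ => hall _, fun _ _ _ => hall _, fun _ _ _ _ => hall _, ?_, ?_,
        fun _ => hall _, fun _ x => (hM.false x).elim, fun _ x => (hM.false x).elim, ?_,
        fun x => (hM.false x).elim⟩
      · intro f _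
        rw [he f]; exact continuous_const
      · exact fun f _ => ⟨0, fun x => (hM.false x).elim⟩
      · exact fun _ => HasCompactSupport.zero
  · exact exists_cutData hfin hC hN hBN x₀

section grad

variable {E : Type*} [NormedAddCommGroup E] [InnerProductSpace ℝ E] {Gr : (M →ₘ[m] ℝ) → M → E}
variable {U : (M →ₘ[m] ℝ) → (M →ₘ[m] ℝ) → M → E}

theorem IsCut.sq {C : Calc m} {χ : ℕ → M →ₘ[m] ℝ} (hχ : IsCut C χ) (hC : IsGamma C) {κ : ℝ}
    (hB : C.BEi κ) : IsCut C (fun n => χ n * χ n) := by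
  obtain ⟨ε, hε, hΓ⟩ := hχ.grad
  refine ⟨fun n => hC.test_mul hB (hχ.mem n) (hχ.mem n), fun n => ?_, ?_, fun n => 4 * ε n, ?_,
    fun n => ?_⟩
  · filter_upwards [hχ.bdd n, mul_ae (χ n) (χ n)] with x a1 a2
    rw [a2, abs_mul]
    exact mul_le_one₀ a1 (abs_nonneg _) a1
  · have : ∀ᵐ x ∂m, ∀ n, (χ n * χ n) x = χ n x * χ n x := ae_all_iff.2 fun n => mul_ae _ _
    filter_upwards [hχ.lim, this] with x a1 a2
    simp only [a2]
    simpa using a1.mul a1
  · simpa using hε.const_mul 4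
  · have cA := hC.test_A (hχ.mem n)
    have c2 := hC.mul_mem_A cA cA
    have e : C.Γ (χ n * χ n) (χ n * χ n) = (4 : ℝ) • (χ n * χ n * C.Γ (χ n) (χ n)) := by
      rw [hC.Γ_mul_left cA cA c2.1, hC.Γ_mul_right cA cA cA.1]
      algebra
    rw [e]
    filter_upwards [smul_ae (χ n * χ n * C.Γ (χ n) (χ n)) (4 : ℝ),
      mul_ae (χ n * χ n) (C.Γ (χ n) (χ n)), mul_ae (χ n) (χ n), hχ.bdd n, hΓ n,
      hC.Γ_nonneg_ae cA.1] with x a1 a2 a3 a4 a5 a6
    rw [a1, a2, a3]
    have h1 : χ n x * χ n x ≤ 1 := by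
      have := mul_le_one₀ a4 (abs_nonneg _) a4
      rwa [← abs_mul, abs_of_nonneg (mul_self_nonneg _)] at this
    have h2 : χ n x * χ n x * C.Γ (χ n) (χ n) x ≤ 1 * C.Γ (χ n) (χ n) x :=
      mul_le_mul_of_nonneg_right h1 a6
    linarith

/-- from fields to gradients -/
theorem pos_grad [SigmaFinite m] {κ κ' : ℝ} (hC : IsGamma (sob m)) (hB : (sob m).BEi κ)
    (hG : IsGrad (sob m) Gr) (hU : IsHU (sob m) Gr U)
    {χ : ℕ → M →ₘ[m] ℝ} (hχ : IsCut (sob m) χ) {H : Type*} [NormedAddCommGroup H]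
    [InnerProductSpace ℝ H] [CompleteSpace H] {ι : List ((M →ₘ[m] ℝ) × (M →ₘ[m] ℝ)) → H}
    (hι : (sob m).IsL2TM ι)
    (hpos : ∀ X Y, (sob m).IsTestV X → (sob m).IsTestV Y → ∀ f ∈ (sob m).Test, 0 ≤ f →
      κ' * I (f * ((sob m).ip X X * (sob m).ip Y Y - (sob m).ip X Y ^ 2))
        ≤ (sob m).curv ι X Y Y X f) :
    ∀ a ∈ (sob m).Test, ∀ b ∈ (sob m).Test, ∀ f ∈ (sob m).Test, 0 ≤ f →
      0 ≤ I ((sob m).rkI (UUof m U) κ' a b b a f) := by
  intro a ha b hb f hf hf0
  have hUU := hU.isUU hC hB hG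
  have hχ4 := (hχ.sq hC hB).sq hC hB
  refine ge_of_tendsto (cut_rk hχ4 hC hB hUU ha hb hb ha hf) (Eventually.of_forall fun n => ?_)
  have hc := hχ.mem n
  have hX : (sob m).IsTestV [(χ n, a)] := by
    intro p hp
    rw [List.mem_singleton] at hp
    rw [hp]; exact ⟨hc, ha⟩
  have hY : (sob m).IsTestV [(χ n, b)] := by
    intro p hp
    rw [List.mem_singleton] at hp
    rw [hp]; exact ⟨hc, hb⟩
  have h1 := hpos _ _ hX hY f hf hf0
  rw [glue' hC hB hG hU hι hX hY hY hX hf] at h1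
  obtain ⟨t1, t2, t3⟩ := fin_term hC hB (κ' := κ') hUU hf (p := (χ n, a)) (q := (χ n, b))
    (r := (χ n, b)) (s := (χ n, a)) ⟨hc, ha⟩ ⟨hc, hb⟩ ⟨hc, hb⟩ ⟨hc, ha⟩
  have e1 : f * ((sob m).ip [(χ n, a)] [(χ n, a)] * (sob m).ip [(χ n, b)] [(χ n, b)]
      - (sob m).ip [(χ n, a)] [(χ n, b)] ^ 2)
      = finW (sob m) f (χ n, a) (χ n, b) (χ n, b) (χ n, a) := by
    unfold finW Calc.ip
    simp only [List.map_cons, List.map_nil, List.sum_cons, List.sum_nil, add_zero]
    ring
  have e2 : ((([(χ n, a)] : List ((M →ₘ[m] ℝ) × (M →ₘ[m] ℝ))).map fun p =>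
      (([(χ n, b)] : List ((M →ₘ[m] ℝ) × (M →ₘ[m] ℝ))).map fun q =>
      (([(χ n, b)] : List ((M →ₘ[m] ℝ) × (M →ₘ[m] ℝ))).map fun r =>
      (([(χ n, a)] : List ((M →ₘ[m] ℝ) × (M →ₘ[m] ℝ))).map fun s =>
        (sob m).omI (UUof m U) f p q r s).sum).sum).sum).sum)
      = (sob m).omI (UUof m U) f (χ n, a) (χ n, b) (χ n, b) (χ n, a) := by
    simp only [List.map_cons, List.map_nil, List.sum_cons, List.sum_nil, add_zero]
  have e3 : χ n * χ n * (χ n * χ n) * f = f * (χ n * χ n) * (χ n * χ n) := by ring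
  rw [e1, e2] at h1
  rw [e3]
  have t3' : I ((sob m).rkI (UUof m U) κ' a b b a (f * (χ n * χ n) * (χ n * χ n)))
      = I ((sob m).omI (UUof m U) f (χ n, a) (χ n, b) (χ n, b) (χ n, a))
        - κ' * I (finW (sob m) f (χ n, a) (χ n, b) (χ n, b) (χ n, a)) := t3
  rw [t3']
  linarith

end grad

/-- the two directions of the equivalence -/
theorem main [CompleteSpace M] [m.IsOpenPosMeasure] [ProperSpace M] {κ K N : ℝ}
    (hN : 0 < N) (h : T.IsRCD m K N) : T.DistSecGE (T.sob m) κ ↔ T.MeasSecGE m κ := by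
  have hS := T_rcd h
  have hR := isRCD_of_S hS
  have hfin := ball_lt_top_of_growth hR.growth
  have hC : IsGamma (sob m) := isGamma_sob hfin hR.quadratic hR.sobolev_to_lipschitz
  have hB : (sob m).BEi K := hC.bei hN hR.bochner
  have hsf : SigmaFinite m := sigmaFinite_of_ball hfin
  obtain ⟨Gr, hG, -⟩ := hC.toIsDir.exists_grad
  obtain ⟨U, hU⟩ := hC.exists_HU hB hG
  obtain ⟨χ, χ', hχ⟩ := exists_cutData' (m := m) hfin hC hN hR.bochner
  have hcov : ∀ {H : Type u} [NormedAddCommGroup H] [InnerProductSpace ℝ H] {ι : T.VF M → H},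
      (S.sob m).IsL2TM ι →
      ∀ X' Y' : List ((M →ₘ[m] ℝ) × (M →ₘ[m] ℝ)), (sob m).IsTestV X' →
      (sob m).IsTestV Y' → (∃ V, (sob m).IsCov (fun X' => ι (coeV X')) X' Y' V) ∧
      (∃ V, (sob m).IsCovT (fun X' => ι (coeV X')) X' Y' V) := by
    intro H _ _ ι hιS X' Y' hX hY
    have hcs : CompleteSpace H := hιS.1
    have hι' := isL2TM_coe hC hιS
    exact ⟨(covE_rep hC hB hG hU hι' hX hY).1, (covTE_rep hC hB hG hU hι' hX hY).1⟩
  have key : ∀ {H : Type u} [NormedAddCommGroup H] [InnerProductSpace ℝ H] {ι : T.VF M → H},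
      (S.sob m).IsL2TM ι → ∀ X Y Z W, (T.sob m).TestV X → (T.sob m).TestV Y →
      (T.sob m).TestV Z → (T.sob m).TestV W → ∀ ρ : SignedMeasure M,
      T.IsCurvMeasure m ι X Y Z W ρ ↔
        ∀ (f : M → ℝ) (F : M →ₘ[m] ℝ), CR f F →
          (sob m).curv (fun X' => ι (coeV X')) (clsV m X) (clsV m Y) (clsV m Z) (clsV m W) F
            = T.sInt ρ f := by
    intro H _ _ ι hιS X Y Z W hX hY hZ hW ρ
    have hι : (T.sob m).IsL2TM ι := hιS
    have hcov := hcov hιS
    have rX := RV_clsV (m := m) hX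
    have rY := RV_clsV (m := m) hY
    have rZ := RV_clsV (m := m) hZ
    have rW := RV_clsV (m := m) hW
    constructor
    · intro hρ f F hf
      have hT : (T.sob m).Test f := (R.test_iff (F := F) hf.2.1).2 hf.2.2
      exact ((curvEq_iff hC hB hι hcov rX rY rZ rW hf.2.1 hf.2.2).1 (hρ f hT hf.1)).symm
    · intro hρ f hT hf
      obtain ⟨F, hF, hF'⟩ := S_test_exists (m := m) hT
      exact (curvEq_iff hC hB hι hcov rX rY rZ rW hF hF').2 (hρ f F ⟨hf, hF, hF'⟩).symm
  constructor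
  · rintro ⟨H, i1, i2, ι, hι, hD⟩
    have hιS : (S.sob m).IsL2TM ι := hι
    have hcs : CompleteSpace H := hι.1
    have hι' := isL2TM_coe hC hιS
    have hsec : ∀ X' Y' : List ((M →ₘ[m] ℝ) × (M →ₘ[m] ℝ)), (sob m).IsTestV X' →
        (sob m).IsTestV Y' → ∀ F ∈ (sob m).Test, 0 ≤ F →
        κ * I (F * ((sob m).ip X' X' * (sob m).ip Y' Y' - (sob m).ip X' Y' ^ 2))
          ≤ (sob m).curv (fun X' => ι (coeV X')) X' Y' Y' X' F := by
      intro X' Y' hX' hY' F hF hF0
      have rX := RV_coeV hX'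
      have rY := RV_coeV hY'
      obtain ⟨A, B, D, E, F₁, G, hA, hB', hD', hE, hF1, hG', hle⟩ :=
        hD _ _ rX.testV rY.testV F ((R.coe F).test_iff.2 hF) (nonneg_iff_ae.1 hF0)
      have h1 := (curvEq_iff hC hB hι (hcov hιS) rX rY rY rX (R.coe F) hF).1
        ⟨A, B, D, E, E, F₁, G, hA, hB', hD', hE, hE, hF1, hG', rfl⟩
      rw [← h1]
      refine le_trans (le_of_eq ?_) hle
      congr 1
      exact (R.int ((R.coe F).mul (R.sub ((rX.ip rX hC).mul (rY.ip rY hC))
        (rX.ip rY hC).sq))).symm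
    have hpos := pos_grad hC hB hG hU hχ.cut hι' hsec
    refine ⟨H, i1, i2, ι, hι, ?_, ?_⟩
    · intro X Y Z W hX hY hZ hW
      have rX := RV_clsV (m := m) hX
      have rY := RV_clsV (m := m) hY
      have rZ := RV_clsV (m := m) hZ
      have rW := RV_clsV (m := m) hW
      have hsm := curv_sm hC hB hG hU hχ hpos hι' rX.isTestV rY.isTestV rZ.isTestV rW.isTestV
      obtain ⟨ρ, h1, h2⟩ := hsm.exists_unique hfin hC hN hR.bochner
      exact ⟨ρ, (key hιS X Y Z W hX hY hZ hW ρ).2 h1,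
        fun σ hσ => h2 σ ((key hιS X Y Z W hX hY hZ hW σ).1 hσ)⟩
    · intro X Y hX hY ρ hρ s hs
      have rX := RV_clsV (m := m) hX
      have rY := RV_clsV (m := m) hY
      obtain ⟨μ, h1, h2⟩ := sec_measure hC hB hG hU hχ hpos hι' rX.isTestV rY.isTestV
      have h3 := sec_bound hfin hC hN hR.bochner (wedge_mem hC hB rX.isTestV rY.isTestV) h2
        ((key hιS X Y Y X hX hY hY hX ρ).1 hρ) hs
      refine le_trans (le_of_eq ?_) h3
      congr 1
      refine integral_congr_ae (ae_restrict_of_ae ?_)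
      exact R.sub ((rX.ip rX hC).mul (rY.ip rY hC)) (rX.ip rY hC).sq
  · rintro ⟨H, i1, i2, ι, hι, hex, hle⟩
    have hιS : (S.sob m).IsL2TM ι := hι
    refine ⟨H, i1, i2, ι, hι, fun X Y hX hY f hf hf0 => ?_⟩
    obtain ⟨ρ, hρ, -⟩ := hex X Y Y X hX hY hY hX
    have rX := RV_clsV (m := m) hX
    have rY := RV_clsV (m := m) hY
    obtain ⟨F, hF, hF'⟩ := S_test_exists (m := m) hf
    obtain ⟨g, hg⟩ := exists_CR hF'
    have h1 := (key hιS X Y Y X hX hY hY hX ρ).1 hρ g F hg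
    obtain ⟨A, B, D, E, F₁, F₂, G, hA, hB', hD', hE, hF1, hF2, hG', hr⟩ :=
      (curvEq_iff hC hB hι (hcov hιS) rX rY rY rX hF hF').2 h1.symm
    have hEF : E = F₁ := by
      refine eq_of_reps (isL2TM_coe hC hιS) fun X' hX' => ?_
      have rX' := RV_coeV hX'
      rw [hE _ rX'.testV, hF1 _ rX'.testV]
    refine ⟨A, B, D, E, F₂, G, hA, hB', hD', hE, hF2, hG', ?_⟩
    subst hEF
    rw [← hr]
    -- the integral of the lower bound
    have hk := wedge_mem hC hB rX.isTestV rY.isTestV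
    set k : M →ₘ[m] ℝ := (sob m).ip (clsV m X) (clsV m X) * (sob m).ip (clsV m Y) (clsV m Y)
      - (sob m).ip (clsV m X) (clsV m Y) ^ 2 with hkdef
    have hkR : R (fun x => (T.sob m).ip X X x * (T.sob m).ip Y Y x - (T.sob m).ip X Y x ^ 2) k :=
      R.sub ((rX.ip rX hC).mul (rY.ip rY hC)) (rX.ip rY hC).sq
    obtain ⟨μ₁, μ₂, j1, j2, j3, j4⟩ := exists_dens' m ((int_of_mem hk).const_mul κ)
    have hmeas : μ₁ + ρ.toJordanDecomposition.negPart
        ≤ ρ.toJordanDecomposition.posPart + μ₂ := by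
      refine Measure.le_iff.2 fun s hs => ?_
      have h2 := hle X Y hX hY ρ hρ s hs
      have h3 : κ * ∫ x in s, ((T.sob m).ip X X x * (T.sob m).ip Y Y x - (T.sob m).ip X Y x ^ 2) ∂m
          = μ₁.real s - μ₂.real s := by
        rw [← j4 s hs, integral_const_mul]
        congr 1
        exact integral_congr_ae (ae_restrict_of_ae hkR)
      rw [h3] at h2
      have h4 : ρ s = ρ.toJordanDecomposition.posPart.real s
          - ρ.toJordanDecomposition.negPart.real s := by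
        conv_lhs => rw [← ρ.toSignedMeasure_toJordanDecomposition]
        unfold JordanDecomposition.toSignedMeasure
        simp only [sub_apply, Measure.toSignedMeasure_apply_measurable hs]
      rw [h4] at h2
      rw [← ENNReal.toReal_le_toReal (measure_ne_top _ _) (measure_ne_top _ _)]
      have h5 : (μ₁ + ρ.toJordanDecomposition.negPart).real s
          ≤ (ρ.toJordanDecomposition.posPart + μ₂).real s := by
        rw [measureReal_add_apply, measureReal_add_apply]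
        linarith
      exact h5
    have hg0 : ∀ x, 0 ≤ g x := by
      refine ae_le (m := m) continuous_const hg.1 ?_
      filter_upwards [hg.2.1, hF, hf0] with x a1 a2 a3
      rw [a1, ← a2]; exact a3
    have h6 := integral_mono_measure hmeas (Eventually.of_forall hg0) (hg.int _)
    rw [integral_add_measure (hg.int _) (hg.int _), integral_add_measure (hg.int _) (hg.int _)] at h6
    have h7 := j3 g hg.1 hg.bdd
    have h8 : κ * (T.sob m).int (fun x => f x * ((T.sob m).ip X X x * (T.sob m).ip Y Y x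
        - (T.sob m).ip X Y x ^ 2)) = ∫ x, g x * (κ * k x) ∂m := by
      have e1 : (T.sob m).int (fun x => f x * ((T.sob m).ip X X x * (T.sob m).ip Y Y x
        - (T.sob m).ip X Y x ^ 2)) = ∫ x, (F * k) x ∂m := R.int (hF.mul hkR)
      rw [e1, ← integral_const_mul]
      refine integral_congr_ae ?_
      filter_upwards [mul_ae F k, hg.2.1] with x a1 a2
      rw [a1, a2]; ring
    rw [h8, h7]
    unfold T.sInt
    linarith

end Vale.Agent.P233.H236
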