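import Vale.Agent.P233.Bd3.B10

/-!
# Cut-off functions and the curvature functional on gradients
-/

open MeasureTheory Filter Topology
open scoped ENNReal NNReal InnerProductSpace

namespace Vale.Agent.P233.H236

open Vale.Agent.P233

variable {M : Type*} [MeasurableSpace M] {m : Measure M} {C : Calc m}

/-- cut-off functions -/
structure IsCut (C : Calc m) (χ : ℕ → M →ₘ[m] ℝ) : Prop where
  mem : ∀ n, χ n ∈ C.Test
  bdd : ∀ n, ∀ᵐ x ∂m, |χ n x| ≤ 1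
  lim : ∀ᵐ x ∂m, Tendsto (fun n => χ n x) atTop (𝓝 1)
  grad : ∃ ε : ℕ → ℝ, Tendsto ε atTop (𝓝 0) ∧ ∀ n, ∀ᵐ x ∂m, C.Γ (χ n) (χ n) x ≤ ε n

variable {χ : ℕ → M →ₘ[m] ℝ} (hχ : IsCut C χ) (hC : IsGamma C) {κ κ' : ℝ} (hB : C.BEi κ)
variable {a b c d f g h φ : M →ₘ[m] ℝ}

include hχ

theorem cut_mul (hG : MemLp g 1 m) : Tendsto (fun n => I (χ n * g)) atTop (𝓝 (I g)) := by
  have hconv' : ∀ᵐ x ∂m, Tendsto (fun k => χ k x) atTop (𝓝 ((1 : M →ₘ[m] ℝ) x)) := by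
    filter_upwards [hχ.lim, one_ae (M := M) (m := m)] with x b1 b2
    rw [b2]; exact b1
  have := I_tendsto_of_bdd hχ.bdd hconv' hG
  rwa [one_mul] at this

include hC

theorem cut_grad (ha : a ∈ C.Test) (hh : MemLp h 2 m) :
    Tendsto (fun n => I (C.Γ (χ n) a * h)) atTop (𝓝 0) := by
  obtain ⟨ε, hε, hΓ⟩ := hχ.grad
  have aW := hC.tW ha
  have hb : ∀ n, I (C.Γ (χ n) a * h) ^ 2 ≤ (ε n * I (C.Γ a a)) * I (h ^ 2) := by
    intro n
    have cW := hC.tW (hχ.mem n)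
    have h2 : MemLp (C.Γ (χ n) a) 2 m :=
      hC.Γ_mem2 cW (hC.test_Γ_top (hχ.mem n)) aW
    refine (I_cs h2 hh).trans ?_
    refine mul_le_mul_of_nonneg_right ?_ (I_nonneg (sq_nonneg' h))
    rw [← I_smul]
    refine I_mono (mem_sq h2) (mem_smul _ (hC.mem1 a aW)) ?_
    rw [le_iff_ae]
    filter_upwards [sq_ae (C.Γ (χ n) a), smul_ae (C.Γ a a) (ε n), hC.Γ_cs_ae cW aW, hΓ n,
      hC.Γ_nonneg_ae aW] with x a1 a2 a3 a4 a5
    rw [a1, a2]
    exact a3.trans (mul_le_mul_of_nonneg_right a4 a5)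
  have h1 : Tendsto (fun n => (ε n * I (C.Γ a a)) * I (h ^ 2)) atTop (𝓝 0) := by
    have := (hε.mul_const (I (C.Γ a a))).mul_const (I (h ^ 2))
    simpa using this
  have h3 : Tendsto (fun n => I (C.Γ (χ n) a * h) ^ 2) atTop (𝓝 0) :=
    squeeze_zero (fun n => sq_nonneg _) hb h1
  have h4 := h3.sqrt
  simp only [Real.sqrt_sq_eq_abs, Real.sqrt_zero] at h4
  exact (tendsto_zero_iff_abs_tendsto_zero _).2 h4

include hB

variable {UU : UUT m} (hUU : C.IsUU UU)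

include hUU

/-- localisation of the curvature functional of gradients -/
theorem cut_rk (ha : a ∈ C.Test) (hb : b ∈ C.Test) (hc : c ∈ C.Test) (hd : d ∈ C.Test)
    (hf : f ∈ C.Test) :
    Tendsto (fun n => I (C.rkI UU κ' a b c d (χ n * f))) atTop (𝓝 (I (C.rkI UU κ' a b c d f))) := by
  have fA := hC.test_A hf
  have aW := hC.tW ha
  have bW := hC.tW hb
  have hr := hC.rkI_mem hB (κ' := κ') hUU ha hb hc hd fA
  have hh1 : MemLp (f * C.hess c b d : M →ₘ[m] ℝ) 2 m :=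
    mem_mul_top fA.2 (hC.hess_mem2 hB hc hb hd)
  have hh2 : MemLp (f * C.hess c a d : M →ₘ[m] ℝ) 2 m :=
    mem_mul_top fA.2 (hC.hess_mem2 hB hc ha hd)
  have e : ∀ n, C.rkI UU κ' a b c d (χ n * f) = χ n * C.rkI UU κ' a b c d f
      - C.Γ (χ n) a * (f * C.hess c b d) + C.Γ (χ n) b * (f * C.hess c a d) := by
    intro n
    have cA := hC.test_A (hχ.mem n)
    unfold Calc.rkI Calc.rrI Calc.De
    rw [hC.Γ_mul_left cA fA aW, hC.Γ_mul_left cA fA bW]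
    algebra
  have t1 := cut_mul hχ hr
  have t2 := cut_grad hχ hC ha hh1
  have t3 := cut_grad hχ hC hb hh2
  have t := (t1.sub t2).add t3
  rw [sub_zero, add_zero] at t
  refine t.congr fun n => ?_
  have cA := hC.test_A (hχ.mem n)
  have k1 : MemLp (χ n * C.rkI UU κ' a b c d f : M →ₘ[m] ℝ) 1 m := mem_mul_top cA.2 hr
  have k2 : MemLp (C.Γ (χ n) a * (f * C.hess c b d) : M →ₘ[m] ℝ) 1 m :=
    mem_mul_22 (hC.Γ_mem2 cA.1 (hC.test_Γ_top (hχ.mem n)) aW) hh1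
  have k3 : MemLp (C.Γ (χ n) b * (f * C.hess c a d) : M →ₘ[m] ℝ) 1 m :=
    mem_mul_22 (hC.Γ_mem2 cA.1 (hC.test_Γ_top (hχ.mem n)) bW) hh2
  rw [e n, I_add (mem_sub k1 k2) k3, I_sub k1 k2]

/-- the curvature functional of gradients is bounded on the cut-off functions -/
theorem cut_bdd (ha : a ∈ C.Test) (hb : b ∈ C.Test) (hc : c ∈ C.Test) (hd : d ∈ C.Test) :
    ∃ K : ℝ, ∀ n, I (C.rkI UU κ' a b c d (χ n)) ≤ K := by
  have aW := hC.tW ha
  have bW := hC.tW hb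
  have dW := hC.tW hd
  have cW := hC.tW hc
  have hh1 := hC.hess_mem2 hB hc hb hd
  have hh2 := hC.hess_mem2 hB hc ha hd
  have u1 := hUU.mem _ hd _ ha _ hc _ hb
  have u2 := hUU.mem _ hd _ hb _ hc _ ha
  have u3 := hUU.mem _ hb _ ha _ hc _ hd
  have u4 := hUU.mem _ ha _ hb _ hc _ hd
  set G : M →ₘ[m] ℝ := -(C.lap a * C.hess c b d) + C.lap b * C.hess c a d
    + (-UU d a c b + UU d b c a - UU b a c d + UU a b c d)
    - κ' • (C.Γ a d * C.Γ b c - C.Γ a b * C.Γ d c) with hG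
  have hGm : MemLp G 1 m := by
    refine mem_sub (mem_add (mem_add (mem_neg (mem_mul_22 (hC.lap2 ha) hh1))
      (mem_mul_22 (hC.lap2 hb) hh2)) (mem_add (mem_sub (mem_add (mem_neg u1) u2) u3) u4))
      (mem_smul _ (mem_sub ?_ ?_))
    · exact mem_mul_top (hC.Γ_mem hB ha hd).2 (hC.Γ_mem1 bW cW)
    · exact mem_mul_top (hC.Γ_mem hB ha hb).2 (hC.Γ_mem1 dW cW)
  have e : ∀ n, C.rkI UU κ' a b c d (χ n) = χ n * G
      - C.Γ (χ n) a * (C.hess c b d) + C.Γ (χ n) b * (C.hess c a d) := by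
    intro n
    rw [hG]
    unfold Calc.rkI Calc.rrI Calc.De
    algebra
  have t := ((cut_mul hχ hGm).sub (cut_grad hχ hC ha hh1)).add (cut_grad hχ hC hb hh2)
  have t' : Tendsto (fun n => I (C.rkI UU κ' a b c d (χ n))) atTop (𝓝 (I G - 0 + 0)) := by
    refine t.congr fun n => ?_
    have cA := hC.test_A (hχ.mem n)
    have k1 : MemLp (χ n * G : M →ₘ[m] ℝ) 1 m := mem_mul_top cA.2 hGm
    have k2 : MemLp (C.Γ (χ n) a * (C.hess c b d) : M →ₘ[m] ℝ) 1 m :=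
      mem_mul_22 (hC.Γ_mem2 cA.1 (hC.test_Γ_top (hχ.mem n)) aW) hh1
    have k3 : MemLp (C.Γ (χ n) b * (C.hess c a d) : M →ₘ[m] ℝ) 1 m :=
      mem_mul_22 (hC.Γ_mem2 cA.1 (hC.test_Γ_top (hχ.mem n)) bW) hh2
    rw [e n, I_add (mem_sub k1 k2) k3, I_sub k1 k2]
  obtain ⟨K, hK⟩ := t'.bddAbove_range
  exact ⟨K, fun n => hK ⟨n, rfl⟩⟩

end Vale.Agent.P233.H236
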