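import Vale.Agent.P233.AB.StmtAB
import Mathlib.MeasureTheory.VectorMeasure.Decomposition.Jordan

/-!
# Measure-valued curvature: definitions
-/

open MeasureTheory
open scoped InnerProductSpace

universe u

namespace Vale.Agent.P233.T

/-- Gigli's functional: `R(X,Y,Z,W)(f) = r`. The vector fields `A = ∇_X (f W)`, `B = ∇_Y Z`,
`D = ∇_Y (f W)`, `E = ∇_X Z`, `F = ∇_X Y`, `F' = ∇_Y X` and `G = ⟨∇_• Z, f W⟩` exist in `L²(TM)`, and
`r = -∫⟨A,B⟩ - ∫ f ⟨∇_Y Z, W⟩ div X + ∫⟨D,E⟩ + ∫ f ⟨∇_X Z, W⟩ div Y - ∫⟨∇_{[X,Y]} Z, f W⟩`. -/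
def Calc.CurvEq {M : Type u} (C : Calc M) {H : Type u} [NormedAddCommGroup H]
    [InnerProductSpace ℝ H] (ι : VF M → H) (X Y Z W : VF M) (f : M → ℝ) (r : ℝ) : Prop :=
  ∃ A B D E F F' G : H, C.IsCov ι X (Calc.mul f W) A ∧ C.IsCov ι Y Z B ∧
    C.IsCov ι Y (Calc.mul f W) D ∧ C.IsCov ι X Z E ∧ C.IsCov ι X Y F ∧ C.IsCov ι Y X F' ∧
    (∀ V, C.TestV V → ⟪G, ι V⟫_ℝ = C.int (C.nab V Z (Calc.mul f W))) ∧
    r = -⟪A, B⟫_ℝ - C.int (fun x => f x * C.nab Y Z W x * C.dv X x)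
      + ⟪D, E⟫_ℝ + C.int (fun x => f x * C.nab X Z W x * C.dv Y x) - ⟪F - F', G⟫_ℝ

/-- `∫ f dρ` for a finite signed measure `ρ = ρ⁺ - ρ⁻` (Jordan decomposition). -/
noncomputable def sInt {M : Type u} [MeasurableSpace M] (ρ : SignedMeasure M) (f : M → ℝ) : ℝ :=
  ∫ x, f x ∂ρ.toJordanDecomposition.posPart - ∫ x, f x ∂ρ.toJordanDecomposition.negPart

/-- The finite signed Borel measure `ρ` is the curvature `R(X,Y,Z,W)`:
`R(X,Y,Z,W)(f) = ∫ f dρ` for every `f ∈ Test(M)`, where `f` denotes the continuous representative. -/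
def IsCurvMeasure {M : Type u} [MetricSpace M] [MeasurableSpace M] (m : Measure M) {H : Type u}
    [NormedAddCommGroup H] [InnerProductSpace ℝ H] (ι : VF M → H) (X Y Z W : VF M)
    (ρ : SignedMeasure M) : Prop :=
  ∀ f : M → ℝ, (sob m).Test f → Continuous f → (sob m).CurvEq ι X Y Z W f (sInt ρ f)

/-- Measure-valued curvature tensor with sectional curvature `≥ κ`: `L²(TM)` exists; for all test
vector fields there is exactly one finite signed Borel measure `R(X,Y,Z,W)`; and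
`R(X,Y,Y,X)(s) ≥ κ ∫_s (|X|²|Y|² - ⟨X,Y⟩²) dm` for all test vector fields and all Borel sets `s`. -/
def MeasSecGE {M : Type u} [MetricSpace M] [MeasurableSpace M] (m : Measure M) (κ : ℝ) : Prop :=
  ∃ (H : Type u) (_ : NormedAddCommGroup H) (_ : InnerProductSpace ℝ H) (ι : VF M → H),
    (sob m).IsL2TM ι ∧
    (∀ X Y Z W, (sob m).TestV X → (sob m).TestV Y → (sob m).TestV Z → (sob m).TestV W →
      ∃! ρ : SignedMeasure M, IsCurvMeasure m ι X Y Z W ρ) ∧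
    ∀ X Y, (sob m).TestV X → (sob m).TestV Y → ∀ ρ : SignedMeasure M,
      IsCurvMeasure m ι X Y Y X ρ → ∀ s, MeasurableSet s →
        κ * ∫ x in s, ((sob m).ip X X x * (sob m).ip Y Y x - (sob m).ip X Y x ^ 2) ∂m ≤ ρ s

end Vale.Agent.P233.T
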