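import Vale.Agent.P233.H236.Grad

/-!
# Finite measures are determined by the integrals of the test functions
-/

open MeasureTheory Filter Topology
open scoped ENNReal NNReal InnerProductSpace

namespace Vale.Agent.P233.H236

open Vale.Agent.P233

set_option linter.unusedSectionVars false

variable {M : Type*} [MetricSpace M] [MeasurableSpace M] [BorelSpace M]
  [SecondCountableTopology M] {m : Measure M}

/-- Lipschitz functions with bounded support are uniform limits of test functions -/
theorem lip_approx [m.IsOpenPosMeasure]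
    (hfin : ∀ (x : M) (r : ℝ), m (Metric.ball x r) < ∞) (hC : IsGamma (sob m))
    {K N : ℝ} (hN : 0 < N) (hBN : (sob m).BE K N) {w : M → ℝ} {L : ℝ≥0}
    (hlip : LipschitzWith L w) {x₀ : M} {R : ℝ} (hsupp : ∀ x, x ∉ Metric.ball x₀ R → w x = 0)
    {ε : ℝ} (hε : 0 < ε) :
    ∃ (f : M → ℝ) (F : M →ₘ[m] ℝ), CR f F ∧ ∀ x, |f x - w x| ≤ ε := by
  have : SigmaFinite m := by
    refine ⟨⟨⟨fun n => Metric.ball x₀ n, fun n => trivial, fun n => hfin _ _, ?_⟩⟩⟩
    exact Metric.iUnion_ball_nat x₀
  have hB : (sob m).BEi K := hC.bei hN hBN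
  obtain ⟨C, hCb⟩ := Met.bdd_of_bounded_support hlip hsupp
  have hgood := Met.good_of_bounded_support hfin hlip hsupp
  have hW : Met.W12 m w := ⟨_, hgood.rSlope⟩
  obtain ⟨η, hη1, hη2⟩ := exists_class hW
  have ηA : η ∈ (sob m).A := by
    refine ⟨hη1, mem_top_iff.2 ⟨C, ?_⟩⟩
    filter_upwards [hη2] with x hx
    rw [hx]; exact hCb x
  have hΓ : ∀ᵐ x ∂m, (sob m).Γ η η x ≤ (L : ℝ) ^ 2 := by
    have h1 := slope_le_of_lipschitz hfin hη1 hη2 hlip
    rw [le_iff_ae] at h1
    filter_upwards [h1, sob_Γ_self_ae hη1, slope_ae hη1, smul_ae (1 : M →ₘ[m] ℝ) (L : ℝ),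
      one_ae (M := M) (m := m), (mem_sob_iff.1 hη1).mslope_nonneg] with x a1 a2 a3 a4 a5 a6
    rw [a3, a4, a5, mul_one] at a1
    rw [a2]
    exact pow_le_pow_left₀ a6 a1 2
  have hΓT : MemLp ((sob m).Γ η η) ∞ m := by
    refine mem_top_iff.2 ⟨(L : ℝ) ^ 2, ?_⟩
    filter_upwards [hΓ, hC.Γ_nonneg_ae hη1] with x a1 a2
    rwa [abs_of_nonneg a2]
  set k : ℝ := |K| with hk
  have hk0 : 0 ≤ k := abs_nonneg K
  have hB' : (sob m).BE (-k) N := hC.be_mono hN (neg_abs_le K) hBN
  have hL0 : (0 : ℝ) ≤ L := L.coe_nonneg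
  set μ : ℝ := min (1 / (8 * (k + 1))) ((ε / (4 * ((L : ℝ) + 1))) ^ 2 / N) with hμ
  have hμ0 : 0 < μ := by
    refine lt_min (by positivity) (by positivity)
  have hμ1 : μ ≤ 1 / (8 * (k + 1)) := min_le_left _ _
  have hμ2 : μ ≤ (ε / (4 * ((L : ℝ) + 1))) ^ 2 / N := min_le_right _ _
  have hμk : 8 * μ * k ≤ 1 := by
    have h1 : μ * (8 * (k + 1)) ≤ 1 := by
      rwa [le_div_iff₀ (by positivity)] at hμ1
    linarith [mul_nonneg hμ0.le hk0]
  have hpos : 0 < 1 + 2 * μ * K := by
    have h1 : -k ≤ K := neg_abs_le K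
    have h2 := mul_le_mul_of_nonneg_left h1 hμ0.le
    linarith [mul_nonneg hμ0.le hk0]
  have hT := (hC.testI_J hB hμ0 hpos ηA hΓT).1
  have hJ := hC.J_sub_le hk0 hN hB' ηA hL0 hΓ hμ0 hμk
  have hb : 4 * (L : ℝ) * √(N * μ) ≤ ε := by
    have h1 : √(N * μ) ≤ ε / (4 * ((L : ℝ) + 1)) := by
      refine Real.sqrt_le_iff.2 ⟨by positivity, ?_⟩
      rw [le_div_iff₀ hN] at hμ2
      linarith
    calc 4 * (L : ℝ) * √(N * μ) ≤ 4 * (L : ℝ) * (ε / (4 * ((L : ℝ) + 1))) :=
          mul_le_mul_of_nonneg_left h1 (by positivity)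
      _ = ε * ((L : ℝ) / ((L : ℝ) + 1)) := by field_simp
      _ ≤ ε * 1 := by
          refine mul_le_mul_of_nonneg_left ?_ hε.le
          rw [div_le_one (by positivity)]
          linarith
      _ = ε := mul_one ε
  obtain ⟨f, hf⟩ := exists_CR hT
  refine ⟨f, _, hf, ?_⟩
  refine ae_le (m := m) (hf.1.sub hlip.continuous).abs continuous_const ?_
  filter_upwards [hf.2.1, hη2, hJ] with x a1 a2 a3
  rw [a1, ← a2]
  exact a3.trans hb

/-- finite measures are determined by the integrals of the test functions -/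
theorem test_det [m.IsOpenPosMeasure]
    (hfin : ∀ (x : M) (r : ℝ), m (Metric.ball x r) < ∞) (hC : IsGamma (sob m))
    {K N : ℝ} (hN : 0 < N) (hBN : (sob m).BE K N) {μ ν : Measure M} [IsFiniteMeasure μ]
    [IsFiniteMeasure ν]
    (h : ∀ (f : M → ℝ) (F : M →ₘ[m] ℝ), CR f F → ∫ x, f x ∂μ = ∫ x, f x ∂ν) : μ = ν := by
  rcases isEmpty_or_nonempty M with hM | ⟨⟨x₀⟩⟩
  · ext s hs
    rw [Set.eq_empty_of_isEmpty s]; simp
  -- Lipschitz functions with bounded support
  have h1 : ∀ (w : M → ℝ) (L : ℝ≥0), LipschitzWith L w → ∀ R : ℝ,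
      (∀ x, x ∉ Metric.ball x₀ R → w x = 0) → ∫ x, w x ∂μ = ∫ x, w x ∂ν := by
    intro w L hw R hR
    obtain ⟨C, hCb⟩ := Met.bdd_of_bounded_support hw hR
    have hint : ∀ (ρ : Measure M) [IsFiniteMeasure ρ], Integrable w ρ := fun ρ _ =>
      Integrable.of_bound hw.continuous.aestronglyMeasurable C
        (Eventually.of_forall fun x => by rw [Real.norm_eq_abs]; exact hCb x)
    have hle : ∀ ε : ℝ, 0 < ε →
        |∫ x, w x ∂μ - ∫ x, w x ∂ν| ≤ ε * (μ.real Set.univ + ν.real Set.univ) := by
      intro ε hε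
      obtain ⟨f, F, hf, hfw⟩ := lip_approx hfin hC hN hBN hw hR hε
      have e1 : ∀ (ρ : Measure M) [IsFiniteMeasure ρ],
          |∫ x, f x ∂ρ - ∫ x, w x ∂ρ| ≤ ε * ρ.real Set.univ := by
        intro ρ _
        rw [← integral_sub (hf.int ρ) (hint ρ)]
        have := norm_integral_le_of_norm_le_const (μ := ρ) (C := ε)
          (Eventually.of_forall fun x => (by rw [Real.norm_eq_abs]; exact hfw x :
            ‖f x - w x‖ ≤ ε))
        rwa [Real.norm_eq_abs] at this
      have e2 := e1 μ
      have e3 := e1 ν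
      rw [h f F hf] at e2
      rw [abs_le] at e2 e3 ⊢
      constructor <;> linarith [e2.1, e2.2, e3.1, e3.2]
    have h2 : |∫ x, w x ∂μ - ∫ x, w x ∂ν| ≤ 0 := by
      refine le_of_forall_pos_le_add fun δ hδ => ?_
      have hs : 0 ≤ μ.real Set.univ + ν.real Set.univ := by positivity
      refine (hle (δ / (μ.real Set.univ + ν.real Set.univ + 1)) (by positivity)).trans ?_
      rw [zero_add, div_mul_eq_mul_div, div_le_iff₀ (by positivity)]
      linarith [mul_nonneg hδ.le hs]
    exact sub_eq_zero.1 (abs_eq_zero.1 (le_antisymm h2 (abs_nonneg _)))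
  -- bounded closed sets
  have h3 : ∀ s : Set M, IsClosed s → Bornology.IsBounded s → μ s = ν s := by
    intro s hs hbd
    rcases s.eq_empty_or_nonempty with rfl | hne
    · simp
    obtain ⟨R, hR⟩ := hbd.subset_ball x₀
    set u : ℕ → M → ℝ := fun n x => max 0 (1 - ((n : ℝ) + 1) * Metric.infDist x s) with hu
    have hulip : ∀ n : ℕ, LipschitzWith (Real.toNNReal ((n : ℝ) + 1)) (u n) := by
      intro n
      have l1 : LipschitzWith (Real.toNNReal ((n : ℝ) + 1))
          fun x => 1 - ((n : ℝ) + 1) * Metric.infDist x s := by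
        refine LipschitzWith.of_dist_le_mul fun x y => ?_
        rw [Real.coe_toNNReal _ (by positivity), Real.dist_eq]
        have := (Metric.lipschitz_infDist_pt s).dist_le_mul x y
        rw [NNReal.coe_one, one_mul, Real.dist_eq] at this
        have e : 1 - ((n : ℝ) + 1) * Metric.infDist x s - (1 - ((n : ℝ) + 1) * Metric.infDist y s)
            = -(((n : ℝ) + 1) * (Metric.infDist x s - Metric.infDist y s)) := by ring
        rw [e, abs_neg, abs_mul, abs_of_nonneg (by positivity : (0 : ℝ) ≤ (n : ℝ) + 1)]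
        exact mul_le_mul_of_nonneg_left this (by positivity)
      exact l1.const_max 0
    have hu0 : ∀ n x, 0 ≤ u n x := fun n x => le_max_left _ _
    have hu1 : ∀ n x, u n x ≤ 1 := fun n x => by
      refine max_le zero_le_one ?_
      have : 0 ≤ ((n : ℝ) + 1) * Metric.infDist x s :=
        mul_nonneg (by positivity) Metric.infDist_nonneg
      linarith
    have husup : ∀ n x, x ∉ Metric.ball x₀ (R + 1) → u n x = 0 := by
      intro n x hx
      rw [Metric.mem_ball, not_lt] at hx
      refine max_eq_left ?_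
      have h4 : 1 ≤ Metric.infDist x s := by
        rw [Metric.le_infDist hne]
        intro y hy
        have := Metric.mem_ball.1 (hR hy)
        linarith [dist_triangle x y x₀]
      have h5 : (0 : ℝ) ≤ n := n.cast_nonneg
      have h6 := mul_le_mul_of_nonneg_left h4 (by positivity : (0 : ℝ) ≤ (n : ℝ) + 1)
      linarith
    have hlim : ∀ x, Tendsto (fun n => u n x) atTop (𝓝 (s.indicator (fun _ => (1 : ℝ)) x)) := by
      intro x
      by_cases hx : x ∈ s
      · rw [Set.indicator_of_mem hx]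
        refine tendsto_const_nhds.congr fun n => ?_
        simp only [hu]
        rw [Metric.infDist_zero_of_mem hx]; simp
      · rw [Set.indicator_of_notMem hx]
        have h4 : 0 < Metric.infDist x s := (hs.notMem_iff_infDist_pos hne).1 hx
        obtain ⟨n₀, hn₀⟩ := exists_nat_ge (1 / Metric.infDist x s)
        refine tendsto_const_nhds.congr' ?_
        filter_upwards [eventually_ge_atTop n₀] with n hn
        refine (max_eq_left ?_).symm
        have h5 : (n₀ : ℝ) ≤ n := by exact_mod_cast hn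
        rw [div_le_iff₀ h4] at hn₀
        have h6 := mul_le_mul_of_nonneg_right h5 h4.le
        linarith
    have hconv : ∀ (ρ : Measure M) [IsFiniteMeasure ρ],
        Tendsto (fun n => ∫ x, u n x ∂ρ) atTop (𝓝 (ρ.real s)) := by
      intro ρ _
      rw [← integral_indicator_one hs.measurableSet]
      refine tendsto_integral_of_dominated_convergence (fun _ => (1 : ℝ))
        (fun n => (hulip n).continuous.aestronglyMeasurable) (integrable_const 1)
        (fun n => Eventually.of_forall fun x => ?_) (Eventually.of_forall hlim)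
      rw [Real.norm_eq_abs, abs_of_nonneg (hu0 n x)]
      exact hu1 n x
    have e : μ.real s = ν.real s := by
      refine tendsto_nhds_unique (hconv μ) ((hconv ν).congr fun n => ?_)
      exact (h1 (u n) _ (hulip n) (R + 1) (husup n)).symm
    rwa [measureReal_eq_measureReal_iff] at e
  have h4 : ∀ s : Set M, IsClosed s → μ s = ν s := by
    intro s hs
    have e : s = ⋃ n : ℕ, s ∩ Metric.closedBall x₀ n := by
      rw [← Set.inter_iUnion, Metric.iUnion_closedBall_nat, Set.inter_univ]
    have hm : Monotone fun n : ℕ => s ∩ Metric.closedBall x₀ n := by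
      intro a b hab
      exact Set.inter_subset_inter_right _
        (Metric.closedBall_subset_closedBall (by exact_mod_cast hab))
    have t1 := tendsto_measure_iUnion_atTop (μ := μ) hm
    have t2 := tendsto_measure_iUnion_atTop (μ := ν) hm
    rw [← e] at t1 t2
    refine tendsto_nhds_unique t1 (t2.congr fun n => ?_)
    exact (h3 _ (hs.inter Metric.isClosed_closedBall)
      (Metric.isBounded_closedBall.subset Set.inter_subset_right)).symm
  refine ext_of_generate_finite {s | IsClosed s} ?_ isPiSystem_isClosed (fun s hs => h4 s hs)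
    (h4 _ isClosed_univ)
  rw [BorelSpace.measurable_eq (α := M), borel_eq_generateFrom_isClosed]

end Vale.Agent.P233.H236
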