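import Vale.Agent.P233.H236.Grad

/-!
# The curvature functionals of test vector fields are measures
-/

open MeasureTheory Filter Topology
open scoped ENNReal NNReal InnerProductSpace

namespace Vale.Agent.P233.H236

open Vale.Agent.P233

set_option linter.unusedSectionVars false

theorem I_ls {M : Type*} [MeasurableSpace M] {m : Measure M} {α : Type*} (X : List α)
    {g : α → M →ₘ[m] ℝ} (h : ∀ p ∈ X, MemLp (g p) 1 m) :
    MemLp (X.map g).sum 1 m ∧ I (X.map g).sum = (X.map fun p => I (g p)).sum := by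
  induction X with
  | nil => exact ⟨by simpa using mem_zero, by simpa using I_zero⟩
  | cons p X ih =>
    obtain ⟨i1, i2⟩ := ih fun q hq => h q (by simp [hq])
    have hp := h p (by simp)
    simp only [List.map_cons, List.sum_cons]
    exact ⟨mem_add hp i1, by rw [I_add hp i1, i2]⟩

section

variable {M : Type*} [MetricSpace M] [MeasurableSpace M] [BorelSpace M]
  [SecondCountableTopology M] {m : Measure M}

theorem IsSM.lin [m.IsOpenPosMeasure] {κ : ℝ} (hC : IsGamma (sob m)) (hB : (sob m).BEi κ)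
    {L : (M →ₘ[m] ℝ) → ℝ} (h : IsSM L) :
    ∀ F ∈ (sob m).Test, ∀ G ∈ (sob m).Test, ∀ t : ℝ, L (F + t • G) = L F + t * L G := by
  obtain ⟨μ, ν, h1, h2, h3⟩ := h
  intro F hF G hG t
  obtain ⟨f, hf⟩ := exists_CR hF
  obtain ⟨g, hg⟩ := exists_CR hG
  rw [h3 f F hf, h3 g G hg, h3 _ _ (hf.add hC hB (hg.smul hC hB t)),
    integral_add (hf.int μ) ((hg.int μ).const_mul t),
    integral_add (hf.int ν) ((hg.int ν).const_mul t), integral_const_mul, integral_const_mul]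
  ring

theorem cut_int [m.IsOpenPosMeasure] {χ : ℕ → M →ₘ[m] ℝ} {χ' : ℕ → M → ℝ} (hχ : CutData χ χ')
    (μ : Measure M) [IsFiniteMeasure μ] {f : M → ℝ} {F : M →ₘ[m] ℝ} (hf : CR f F) :
    Tendsto (fun n => ∫ x, χ' n x * f x ∂μ) atTop (𝓝 (∫ x, f x ∂μ)) := by
  have hT := hχ.alg
  obtain ⟨K, hK⟩ := hf.bdd
  refine tendsto_integral_of_dominated_convergence (fun _ => K) (fun n => ?_)
    (integrable_const K) (fun n => Eventually.of_forall fun x => ?_)
    (Eventually.of_forall fun x => ?_)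
  · exact ((hT.cont _ (hT.mem n)).mul hf.1).aestronglyMeasurable
  · rw [Real.norm_eq_abs, abs_mul, abs_of_nonneg (hT.nonneg n x)]
    calc χ' n x * |f x| ≤ 1 * K :=
          mul_le_mul (hT.le_one n x) (hK x) (abs_nonneg _) zero_le_one
      _ = K := one_mul K
  · obtain ⟨n₀, hn⟩ := hT.one x 0
    refine tendsto_const_nhds.congr' ?_
    filter_upwards [eventually_ge_atTop n₀] with n hnn
    rw [hn n hnn x (by simp), one_mul]

theorem IsSM.lim [m.IsOpenPosMeasure] {κ : ℝ} (hC : IsGamma (sob m)) (hB : (sob m).BEi κ)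
    {χ : ℕ → M →ₘ[m] ℝ} {χ' : ℕ → M → ℝ} (hχ : CutData χ χ')
    {L : (M →ₘ[m] ℝ) → ℝ} (h : IsSM L) :
    ∀ F ∈ (sob m).Test, Tendsto (fun n => L (χ n * F)) atTop (𝓝 (L F)) := by
  obtain ⟨μ, ν, h1, h2, h3⟩ := h
  intro F hF
  obtain ⟨f, hf⟩ := exists_CR hF
  rw [h3 f F hf]
  refine ((cut_int hχ μ hf).sub (cut_int hχ ν hf)).congr fun n => ?_
  rw [h3 _ _ ((hχ.cr n).mul hC hB hf)]

theorem IsSM.bd [m.IsOpenPosMeasure] {χ : ℕ → M →ₘ[m] ℝ} {χ' : ℕ → M → ℝ} (hχ : CutData χ χ')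
    {L : (M →ₘ[m] ℝ) → ℝ} (h : IsSM L) : ∃ K, ∀ n, L (χ n) ≤ K := by
  obtain ⟨μ, ν, h1, h2, h3⟩ := h
  refine ⟨∫ _, (1 : ℝ) ∂μ, fun n => ?_⟩
  rw [h3 _ _ (hχ.cr n)]
  have a1 : ∫ x, χ' n x ∂μ ≤ ∫ _, (1 : ℝ) ∂μ :=
    integral_mono ((hχ.cr n).int μ) (integrable_const _) (hχ.alg.le_one n)
  have a2 : 0 ≤ ∫ x, χ' n x ∂ν := integral_nonneg (hχ.alg.nonneg n)
  linarith

end

section field

variable {M : Type*} [MetricSpace M] [MeasurableSpace M] [BorelSpace M]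
  [SecondCountableTopology M] {m : Measure M}
variable {E : Type*} [NormedAddCommGroup E] [InnerProductSpace ℝ E] {Gr : (M →ₘ[m] ℝ) → M → E}
variable {U : (M →ₘ[m] ℝ) → (M →ₘ[m] ℝ) → M → E}
variable [ProperSpace M] [m.IsOpenPosMeasure] [SigmaFinite m] {κ κ' : ℝ} (hC : IsGamma (sob m))
  (hB : (sob m).BEi κ) (hG : IsGrad (sob m) Gr) (hU : IsHU (sob m) Gr U)
  {χ : ℕ → M →ₘ[m] ℝ} {χ' : ℕ → M → ℝ} (hχ : CutData χ χ')
  (hpos : ∀ a ∈ (sob m).Test, ∀ b ∈ (sob m).Test, ∀ f ∈ (sob m).Test, 0 ≤ f →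
      0 ≤ I ((sob m).rkI (UUof m U) κ' a b b a f))
variable {X Y Z W : List ((M →ₘ[m] ℝ) × (M →ₘ[m] ℝ))}
variable {H : Type*} [NormedAddCommGroup H] [InnerProductSpace ℝ H] [CompleteSpace H]
  {ι : List ((M →ₘ[m] ℝ) × (M →ₘ[m] ℝ)) → H} (hι : (sob m).IsL2TM ι)

include hC hB hG hU hχ hpos hι

/-- the curvature functional of test vector fields is a difference of two finite measures -/
theorem curv_sm (hX : (sob m).IsTestV X) (hY : (sob m).IsTestV Y) (hZ : (sob m).IsTestV Z)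
    (hW : (sob m).IsTestV W) : IsSM (fun F : M →ₘ[m] ℝ => (sob m).curv ι X Y Z W F) := by
  have hUU := hU.isUU hC hB hG
  have key : ∀ p ∈ X, ∀ q ∈ Y, ∀ r ∈ Z, ∀ s ∈ W, ∀ F ∈ (sob m).Test,
      MemLp ((sob m).omI (UUof m U) F p q r s) 1 m ∧ I ((sob m).omI (UUof m U) F p q r s)
        = I ((sob m).rrI (UUof m U) p.2 q.2 r.2 s.2 (F * (s.1 * p.1 * q.1 * r.1))) := by
    intro p hp q hq r hr s hs F hF
    have := hC.I_omI hB (UU := UUof m U) hF (hX p hp).1 (hY q hq).1 (hZ r hr).1 (hW s hs).1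
      (hX p hp).2 (hY q hq).2 (hZ r hr).2 (hW s hs).2 hUU.mem
    have e : F * s.1 * p.1 * q.1 * r.1 = F * (s.1 * p.1 * q.1 * r.1) := by ring
    rw [e] at this
    exact this
  have s1 : IsSM (fun F : M →ₘ[m] ℝ => (X.map fun p => (Y.map fun q => (Z.map fun r =>
      (W.map fun s => I ((sob m).rrI (UUof m U) p.2 q.2 r.2 s.2
        (F * (s.1 * p.1 * q.1 * r.1)))).sum).sum).sum).sum) := by
    refine IsSM.sum X fun p hp => IsSM.sum Y fun q hq => IsSM.sum Z fun r hr =>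
      IsSM.sum W fun s hs => ?_
    refine IsSM.mul hC hB (rr_sm hC hB hG hU hχ hpos (hX p hp).2 (hY q hq).2 (hZ r hr).2
      (hW s hs).2) ?_
    exact hC.test_mul hB (hC.test_mul hB (hC.test_mul hB (hW s hs).1 (hX p hp).1) (hY q hq).1)
      (hZ r hr).1
  refine s1.congr fun F hF => ?_
  rw [glue' hC hB hG hU hι hX hY hZ hW hF]
  have m1 : ∀ p ∈ X, ∀ q ∈ Y, ∀ r ∈ Z, MemLp ((W.map fun s =>
      (sob m).omI (UUof m U) F p q r s).sum) 1 m := fun p hp q hq r hr =>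
    (I_ls W fun s hs => (key p hp q hq r hr s hs F hF).1).1
  have m2 : ∀ p ∈ X, ∀ q ∈ Y, MemLp ((Z.map fun r => (W.map fun s =>
      (sob m).omI (UUof m U) F p q r s).sum).sum) 1 m := fun p hp q hq =>
    (I_ls Z fun r hr => m1 p hp q hq r hr).1
  have m3 : ∀ p ∈ X, MemLp ((Y.map fun q => (Z.map fun r => (W.map fun s =>
      (sob m).omI (UUof m U) F p q r s).sum).sum).sum) 1 m := fun p hp =>
    (I_ls Y fun q hq => m2 p hp q hq).1
  rw [(I_ls X m3).2]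
  refine ls_congr fun p hp => ?_
  rw [(I_ls Y (m2 p hp)).2]
  refine ls_congr fun q hq => ?_
  rw [(I_ls Z (m1 p hp q hq)).2]
  refine ls_congr fun r hr => ?_
  rw [(I_ls W fun s hs => (key p hp q hq r hr s hs F hF).1).2]
  exact ls_congr fun s hs => (key p hp q hq r hr s hs F hF).2

omit hG hU hχ hpos hι [ProperSpace M] [m.IsOpenPosMeasure] [SigmaFinite m] in
theorem wedge_mem (hX : (sob m).IsTestV X) (hY : (sob m).IsTestV Y) :
    MemLp ((sob m).ip X X * (sob m).ip Y Y - (sob m).ip X Y ^ 2 : M →ₘ[m] ℝ) 1 m := by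
  have t : ∀ {X Y : List ((M →ₘ[m] ℝ) × (M →ₘ[m] ℝ))}, (sob m).IsTestV X → (sob m).IsTestV Y →
      MemLp ((sob m).ip X Y) ∞ m := by
    intro X Y hX hY
    unfold Calc.ip
    refine mem_ls fun p hp => mem_ls fun q hq => ?_
    exact mem_mul_top (mem_mul_top (hC.test_A (hX p hp).1).2 (hC.test_A (hY q hq).1).2)
      (hC.Γ_mem hB (hX p hp).2 (hY q hq).2).2
  have o : ∀ {X Y : List ((M →ₘ[m] ℝ) × (M →ₘ[m] ℝ))}, (sob m).IsTestV X → (sob m).IsTestV Y →
      MemLp ((sob m).ip X Y) 1 m := by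
    intro X Y hX hY
    unfold Calc.ip
    refine mem_ls fun p hp => mem_ls fun q hq => ?_
    exact mem_mul_top (mem_mul_top (hC.test_A (hX p hp).1).2 (hC.test_A (hY q hq).1).2)
      (hC.Γ_mem1 (hC.tW (hX p hp).2) (hC.tW (hY q hq).2))
  rw [sq]
  exact mem_sub (mem_mul_top (t hX hX) (o hY hY)) (mem_mul_top (t hX hY) (o hX hY))

/-- the sectional curvature functional of two test vector fields is a measure bounded below -/
theorem sec_measure (hX : (sob m).IsTestV X) (hY : (sob m).IsTestV Y) :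
    ∃ μ : Measure M, IsFiniteMeasure μ ∧ ∀ (f : M → ℝ) (F : M →ₘ[m] ℝ), CR f F →
      (sob m).curv ι X Y Y X F = ∫ x, f x ∂μ
        + κ' * I (F * ((sob m).ip X X * (sob m).ip Y Y - (sob m).ip X Y ^ 2)) := by
  have s1 : IsSM (fun F : M →ₘ[m] ℝ => (sob m).curv ι X Y Y X F
      - κ' * I (F * ((sob m).ip X X * (sob m).ip Y Y - (sob m).ip X Y ^ 2))) :=
    (curv_sm hC hB hG hU hχ hpos hι hX hY hY hX).sub ((IsSM.int (wedge_mem hC hB hX hY)).smul κ')
  obtain ⟨μ, h1, h2⟩ := pos_measure hC hB hχ (s1.lin hC hB) (fun F hF hF0 => by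
    have := (fin_abs hC hB hG hU hι hpos hX hY).2.2 F hF hF0
    linarith) (s1.bd hχ) (s1.lim hC hB hχ)
  refine ⟨μ, h1, fun f F hF => ?_⟩
  have := h2 f F hF
  linarith

end field

end Vale.Agent.P233.H236
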