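import Vale.Agent.P233.Bd3.B10

/-!
# Gigli's curvature functional `R(X,Y,Z,W)(f)` as an integral
-/

open MeasureTheory Filter Topology
open scoped ENNReal NNReal InnerProductSpace

namespace Vale.Agent.P233.H236

open Vale.Agent.P233

universe u

variable {M : Type*} [MeasurableSpace M] {m : Measure M} {C : Calc m}
variable {E : Type*} [NormedAddCommGroup E] [InnerProductSpace ℝ E] {Gr : (M →ₘ[m] ℝ) → M → E}
variable {U : (M →ₘ[m] ℝ) → (M →ₘ[m] ℝ) → M → E}
variable {X Y Z W : List ((M →ₘ[m] ℝ) × (M →ₘ[m] ℝ))} {f : M →ₘ[m] ℝ}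

/-- the algebraic identity behind the curvature formula -/
theorem om_sum' (UU : UUT m) (f : M →ₘ[m] ℝ) (X Y Z W : List ((M →ₘ[m] ℝ) × (M →ₘ[m] ℝ))) :
    (X.map fun p => (Y.map fun q => (Z.map fun r => (W.map fun s =>
      C.omI UU f p q r s).sum).sum).sum).sum =
    -(X.map fun p => ((Calc.mulV f W).map fun s => (Y.map fun q => (Z.map fun r =>
        C.ccI UU p s q r).sum).sum).sum).sum
      - f * C.nab Y Z W * C.dv X
      + (Y.map fun q => ((Calc.mulV f W).map fun s => (X.map fun p => (Z.map fun r =>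
        C.ccI UU q s p r).sum).sum).sum).sum
      + f * C.nab X Z W * C.dv Y
      - ((X.map fun p => (Y.map fun q => (Z.map fun r => ((Calc.mulV f W).map fun s =>
        C.ctI UU p q r s).sum).sum).sum).sum
        - (Y.map fun q => (X.map fun p => (Z.map fun r => ((Calc.mulV f W).map fun s =>
        C.ctI UU q p r s).sum).sum).sum).sum) := by
  have e1 : (X.map fun p => ((Calc.mulV f W).map fun s => (Y.map fun q => (Z.map fun r =>
        C.ccI UU p s q r).sum).sum).sum).sum
      = (X.map fun p => (Y.map fun q => (Z.map fun r => (W.map fun s =>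
        C.ccI UU p (f * s.1, s.2) q r).sum).sum).sum).sum := by
    refine ls_congr fun p _ => ?_
    rw [ls_mulV, ls_comm]
    refine ls_congr fun q _ => ?_
    rw [ls_comm]
  have e2 : (Y.map fun q => ((Calc.mulV f W).map fun s => (X.map fun p => (Z.map fun r =>
        C.ccI UU q s p r).sum).sum).sum).sum
      = (X.map fun p => (Y.map fun q => (Z.map fun r => (W.map fun s =>
        C.ccI UU q (f * s.1, s.2) p r).sum).sum).sum).sum := by
    rw [ls_comm X Y]
    refine ls_congr fun q _ => ?_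
    rw [ls_mulV, ls_comm]
    refine ls_congr fun p _ => ?_
    rw [ls_comm]
  have e3 : (X.map fun p => (Y.map fun q => (Z.map fun r => ((Calc.mulV f W).map fun s =>
        C.ctI UU p q r s).sum).sum).sum).sum
      = (X.map fun p => (Y.map fun q => (Z.map fun r => (W.map fun s =>
        C.ctI UU p q r (f * s.1, s.2)).sum).sum).sum).sum := by
    simp only [ls_mulV]
  have e4 : (Y.map fun q => (X.map fun p => (Z.map fun r => ((Calc.mulV f W).map fun s =>
        C.ctI UU q p r s).sum).sum).sum).sum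
      = (X.map fun p => (Y.map fun q => (Z.map fun r => (W.map fun s =>
        C.ctI UU q p r (f * s.1, s.2)).sum).sum).sum).sum := by
    rw [ls_comm X Y]
    simp only [ls_mulV]
  have e5 : f * C.nab Y Z W * C.dv X = (X.map fun p => (Y.map fun q => (Z.map fun r =>
      (W.map fun s => f * C.nabI q r s * C.dvI p).sum).sum).sum).sum := by
    simp only [ls_mul', ls_mul]
    rfl
  have e6 : f * C.nab X Z W * C.dv Y = (X.map fun p => (Y.map fun q => (Z.map fun r =>
      (W.map fun s => f * C.nabI p r s * C.dvI q).sum).sum).sum).sum := by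
    simp only [ls_mul', ls_mul]
    rfl
  rw [e1, e2, e3, e4, e5, e6]
  simp only [Calc.omI, ls_sub, List.sum_map_add, ls_neg]

/-- the curvature functional as one integral -/
theorem glue' {H : Type*} [NormedAddCommGroup H] [InnerProductSpace ℝ H] [CompleteSpace H]
    [SigmaFinite m] (hC : IsGamma C) {κ : ℝ} (hB : C.BEi κ) (hG : IsGrad C Gr)
    (hU : IsHU C Gr U) {ι : List ((M →ₘ[m] ℝ) × (M →ₘ[m] ℝ)) → H} (hι : C.IsL2TM ι)
    (hX : C.IsTestV X) (hY : C.IsTestV Y) (hZ : C.IsTestV Z) (hW : C.IsTestV W)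
    (hf : f ∈ C.Test) :
    C.curv ι X Y Z W f = I ((X.map fun p => (Y.map fun q => (Z.map fun r => (W.map fun s =>
        C.omI (UUof m U) f p q r s).sum).sum).sum).sum) := by
  have hV := mulV_test hC hB hW hf
  have r1 := (covE_rep hC hB hG hU hι hX hV).2
  have r2 := (covE_rep hC hB hG hU hι hY hZ).2
  have r3 := (covE_rep hC hB hG hU hι hY hV).2
  have r4 := (covE_rep hC hB hG hU hι hX hZ).2
  have r4' := (covE_rep hC hB hG hU hι hX hY).2
  have r5 := (covE_rep hC hB hG hU hι hY hX).2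
  have r6 := (covTE_rep hC hB hG hU hι hZ hV).2
  have i1 := repE_inner hG hC hι r1 r2
  have i2 := repE_inner hG hC hι r3 r4
  have i3 := repE_inner hG hC hι r4' r6
  have i4 := repE_inner hG hC hι r5 r6
  have c1 := (cvV_inCl hC hB hG hU hX hV).1
  have c2 := (cvV_inCl hC hB hG hU hY hZ).1
  have c3 := (cvV_inCl hC hB hG hU hY hV).1
  have c4 := (cvV_inCl hC hB hG hU hX hZ).1
  have c4' := (cvV_inCl hC hB hG hU hX hY).1
  have c5 := (cvV_inCl hC hB hG hU hY hX).1
  have c6 := (ctV_inCl hC hB hG hU hZ hV).1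
  obtain ⟨m1, j1⟩ := memI_of_inner c1 c2 (ccV_ae hC hG hU hX hV hY hZ)
  obtain ⟨m2, j2⟩ := memI_of_inner c3 c4 (ccV_ae hC hG hU hY hV hX hZ)
  obtain ⟨m3, j3⟩ := memI_of_inner c4' c6 (ctV_ae hC hG hU hX hY hZ hV)
  obtain ⟨m4, j4⟩ := memI_of_inner c5 c6 (ctV_ae hC hG hU hY hX hZ hV)
  have fT := (hC.test_A hf).2
  have n5 : MemLp (f * C.nab Y Z W * C.dv X) 1 m :=
    mem_mul_22 (mem_mul_top fT (nab_mem2 hC hB hY hZ hW)) (dv_mem2 hC hB hX)
  have n6 : MemLp (f * C.nab X Z W * C.dv Y) 1 m :=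
    mem_mul_22 (mem_mul_top fT (nab_mem2 hC hB hX hZ hW)) (dv_mem2 hC hB hY)
  have d5 : ∫ x, (f * C.nab Y Z W * C.dv X) x ∂m = I (f * C.nab Y Z W * C.dv X) := rfl
  have d6 : ∫ x, (f * C.nab X Z W * C.dv Y) x ∂m = I (f * C.nab X Z W * C.dv Y) := rfl
  unfold Calc.curv
  rw [inner_sub_left, i1, i2, i3, i4, j1, j2, j3, j4, d5, d6, om_sum',
    ← I_comb6 m1 n5 m2 n6 m3 m4]

end Vale.Agent.P233.H236
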