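import Vale.Agent.P233.H236.Rep

/-!
# The curvature functionals of gradients are measures
-/

open MeasureTheory Filter Topology
open scoped ENNReal NNReal InnerProductSpace

namespace Vale.Agent.P233.H236

open Vale.Agent.P233

set_option linter.unusedSectionVars false

section cut

variable {M : Type*} [MetricSpace M] [MeasurableSpace M] [BorelSpace M]
  [SecondCountableTopology M] {m : Measure M}

/-- cut-off functions with their continuous representatives -/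
structure CutData (χ : ℕ → M →ₘ[m] ℝ) (χ' : ℕ → M → ℝ) : Prop where
  cut : IsCut (sob m) χ
  cr : ∀ n, CR (χ' n) (χ n)
  alg : CutAlg {f : M → ℝ | ∃ F : M →ₘ[m] ℝ, CR f F} χ'

theorem CR.add {κ : ℝ} (hC : IsGamma (sob m)) (hB : (sob m).BEi κ) {f g : M → ℝ}
    {F G : M →ₘ[m] ℝ} (h : CR f F) (h' : CR g G) : CR (fun x => f x + g x) (F + G) := by
  refine ⟨h.1.add h'.1, ?_, hC.test_add hB h.2.2 h'.2.2⟩
  filter_upwards [h.2.1, h'.2.1, add_ae F G] with x a1 a2 a3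
  rw [a1, a2, a3]

theorem CR.smul {κ : ℝ} (hC : IsGamma (sob m)) (hB : (sob m).BEi κ) (c : ℝ) {f : M → ℝ}
    {F : M →ₘ[m] ℝ} (h : CR f F) : CR (fun x => c * f x) (c • F) := by
  refine ⟨h.1.const_mul c, ?_, hC.test_smul hB c h.2.2⟩
  filter_upwards [h.2.1, smul_ae F c] with x a1 a3
  rw [a1, a3]

theorem exists_cutData [ProperSpace M] [m.IsOpenPosMeasure]
    (hfin : ∀ (x : M) (r : ℝ), m (Metric.ball x r) < ∞) (hC : IsGamma (sob m))
    {K N : ℝ} (hN : 0 < N) (hBN : (sob m).BE K N) (x₀ : M) :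
    ∃ (χ : ℕ → M →ₘ[m] ℝ) (χ' : ℕ → M → ℝ), CutData χ χ' := by
  have hB : (sob m).BEi K := hC.bei hN hBN
  obtain ⟨Cc, hCc⟩ := exists_cutI hfin hC hN hBN x₀
  have h1 : ∀ n : ℕ, (1 : ℝ) ≤ (n : ℝ) + 1 := fun n => by
    have : (0 : ℝ) ≤ n := n.cast_nonneg
    linarith
  choose χ hχ h0 hle hone hsup hΓ hlap using fun n : ℕ => hCc ((n : ℝ) + 1) (h1 n)
  choose R' hR' using hsup
  have hT : ∀ n, χ n ∈ (sob m).Test := fun n => (hχ n).1
  choose χ' hχ' using fun n => exists_CR (hT n)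
  have hnn : ∀ n x, 0 ≤ χ' n x := fun n => by
    refine ae_le (m := m) continuous_const (hχ' n).1 ?_
    filter_upwards [(hχ' n).2.1, nonneg_iff_ae.1 (h0 n)] with x a1 a2
    rwa [a1]
  have hl1 : ∀ n x, χ' n x ≤ 1 := fun n => by
    refine ae_le (m := m) (hχ' n).1 continuous_const ?_
    filter_upwards [(hχ' n).2.1, le_iff_ae.1 (hle n), one_ae (M := M) (m := m)] with x a1 a2 a3
    rwa [a1, ← a3]
  have ho : ∀ n : ℕ, ∀ x ∈ Metric.ball x₀ ((n : ℝ) + 1), χ' n x = 1 := fun n => by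
    refine ae_open (m := m) Metric.isOpen_ball (hχ' n).1 continuous_const ?_
    filter_upwards [(hχ' n).2.1, hone n] with x a1 a2 hx
    rw [a1]
    exact a2 (Metric.mem_ball.1 hx).le
  have hz : ∀ n, ∀ x ∈ {x : M | R' n < dist x x₀}, χ' n x = 0 := fun n => by
    refine ae_open (m := m) (isOpen_lt continuous_const (by fun_prop)) (hχ' n).1
      continuous_const ?_
    filter_upwards [(hχ' n).2.1, hR' n] with x a1 a2 hx
    rw [a1]
    exact a2 hx
  refine ⟨χ, χ', ⟨hT, fun n => ?_, ?_, ?_⟩, hχ', ?_⟩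
  · filter_upwards [nonneg_iff_ae.1 (h0 n), le_iff_ae.1 (hle n), one_ae (M := M) (m := m)]
      with x a1 a2 a3
    rw [abs_of_nonneg a1, ← a3]
    exact a2
  · filter_upwards [ae_all_iff.2 hone] with x hx
    obtain ⟨n₀, hn₀⟩ := exists_nat_ge (dist x x₀)
    refine tendsto_const_nhds.congr' ?_
    filter_upwards [eventually_ge_atTop n₀] with n hn
    refine (hx n ?_).symm
    have : (n₀ : ℝ) ≤ n := by exact_mod_cast hn
    linarith
  · refine ⟨fun n => Cc / ((n : ℝ) + 1) ^ 2, ?_, hΓ⟩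
    have h2 : Tendsto (fun n : ℕ => ((n : ℝ) + 1)) atTop atTop :=
      tendsto_atTop_add_const_right _ _ tendsto_natCast_atTop_atTop
    exact tendsto_const_nhds.div_atTop ((tendsto_pow_atTop two_ne_zero).comp h2)
  · refine ⟨⟨0, continuous_const, zero_ae.symm, hC.test_zero hB⟩, ?_, ?_, ?_, ?_, ?_, ?_, hnn, hl1,
      ?_, ?_⟩
    · rintro f ⟨F, hF⟩ g ⟨G, hG⟩
      exact ⟨_, hF.add hC hB hG⟩
    · rintro c f ⟨F, hF⟩
      exact ⟨_, hF.smul hC hB c⟩
    · rintro f ⟨F, hF⟩ g ⟨G, hG⟩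
      exact ⟨_, hF.mul hC hB hG⟩
    · rintro f ⟨F, hF⟩
      exact hF.1
    · rintro f ⟨F, hF⟩
      exact hF.bdd
    · exact fun n => ⟨_, hχ' n⟩
    · intro n
      refine HasCompactSupport.intro (isCompact_closedBall x₀ (R' n)) fun x hx => hz n x ?_
      change R' n < dist x x₀
      simpa only [Metric.mem_closedBall, not_le] using hx
    · intro y r
      obtain ⟨n₀, hn₀⟩ := exists_nat_ge (r + dist y x₀)
      refine ⟨n₀, fun n hn x hx => ho n x ?_⟩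
      have : (n₀ : ℝ) ≤ n := by exact_mod_cast hn
      rw [Metric.mem_ball]
      linarith [dist_triangle x y x₀]

/-- a positive functional on the test functions is a finite measure -/
theorem pos_measure [ProperSpace M] [m.IsOpenPosMeasure] {κ : ℝ} (hC : IsGamma (sob m))
    (hB : (sob m).BEi κ) {χ : ℕ → M →ₘ[m] ℝ} {χ' : ℕ → M → ℝ} (hχ : CutData χ χ')
    {Λ : (M →ₘ[m] ℝ) → ℝ}
    (hlin : ∀ F ∈ (sob m).Test, ∀ G ∈ (sob m).Test, ∀ t : ℝ, Λ (F + t • G) = Λ F + t * Λ G)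
    (hpos : ∀ F ∈ (sob m).Test, 0 ≤ F → 0 ≤ Λ F) (hbd : ∃ K, ∀ n, Λ (χ n) ≤ K)
    (hlim : ∀ F ∈ (sob m).Test, Tendsto (fun n => Λ (χ n * F)) atTop (𝓝 (Λ F))) :
    ∃ μ : Measure M, IsFiniteMeasure μ ∧ ∀ (f : M → ℝ) (F : M →ₘ[m] ℝ), CR f F →
      Λ F = ∫ x, f x ∂μ := by
  have hcls : ∀ {f : M → ℝ} {F : M →ₘ[m] ℝ}, CR f F → cls m f = F := fun h => R_cls h.2.1
  obtain ⟨K, hK⟩ := hbd
  have h0 : Λ 0 = 0 := by
    have := hlin 0 (hC.test_zero hB) 0 (hC.test_zero hB) 1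
    simpa using this
  have e1 : ∀ f ∈ {f : M → ℝ | ∃ F : M →ₘ[m] ℝ, CR f F}, ∀ g ∈ {f : M → ℝ | ∃ F : M →ₘ[m] ℝ, CR f F},
      Λ (cls m fun x => f x + g x) = Λ (cls m f) + Λ (cls m g) := by
    rintro f ⟨F, hF⟩ g ⟨G, hG⟩
    have := hlin F hF.2.2 G hG.2.2 1
    rw [one_smul, one_mul] at this
    rw [hcls hF, hcls hG, hcls (hF.add hC hB hG), this]
  have e2 : ∀ (c : ℝ), ∀ f ∈ {f : M → ℝ | ∃ F : M →ₘ[m] ℝ, CR f F},
      Λ (cls m fun x => c * f x) = c * Λ (cls m f) := by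
    rintro c f ⟨F, hF⟩
    have := hlin 0 (hC.test_zero hB) F hF.2.2 c
    rw [zero_add, h0, zero_add] at this
    rw [hcls hF, hcls (hF.smul hC hB c), this]
  have e3 : ∀ f ∈ {f : M → ℝ | ∃ F : M →ₘ[m] ℝ, CR f F}, (∀ x, 0 ≤ f x) → 0 ≤ Λ (cls m f) := by
    rintro f ⟨F, hF⟩ hf
    rw [hcls hF]
    refine hpos F hF.2.2 (nonneg_iff_ae.2 ?_)
    filter_upwards [hF.2.1] with x a1
    rw [← a1]; exact hf x
  have e4 : ∀ n, Λ (cls m (χ' n)) ≤ K := by
    intro n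
    rw [hcls (hχ.cr n)]
    exact hK n
  have e5 : ∀ f ∈ {f : M → ℝ | ∃ F : M →ₘ[m] ℝ, CR f F},
      Tendsto (fun n => Λ (cls m fun x => χ' n x * f x)) atTop (𝓝 (Λ (cls m f))) := by
    rintro f ⟨F, hF⟩
    rw [hcls hF]
    refine (hlim F hF.2.2).congr fun n => ?_
    rw [hcls ((hχ.cr n).mul hC hB hF)]
  obtain ⟨μ, h1, h2⟩ := hχ.alg.exists_measure (fun f => Λ (cls m f)) e1 e2 e3 e4 e5
  refine ⟨μ, h1, fun f F hF => ?_⟩
  rw [h2 f ⟨F, hF⟩, hcls hF]

end cut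

section grad

variable {M : Type*} [MetricSpace M] [MeasurableSpace M] [BorelSpace M]
  [SecondCountableTopology M] {m : Measure M}
variable {E : Type*} [NormedAddCommGroup E] [InnerProductSpace ℝ E] {Gr : (M →ₘ[m] ℝ) → M → E}
variable {U : (M →ₘ[m] ℝ) → (M →ₘ[m] ℝ) → M → E}
variable [ProperSpace M] [m.IsOpenPosMeasure] {κ κ' : ℝ} (hC : IsGamma (sob m))
  (hB : (sob m).BEi κ) (hG : IsGrad (sob m) Gr) (hU : IsHU (sob m) Gr U)
  {χ : ℕ → M →ₘ[m] ℝ} {χ' : ℕ → M → ℝ} (hχ : CutData χ χ')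
  (hpos : ∀ a ∈ (sob m).Test, ∀ b ∈ (sob m).Test, ∀ f ∈ (sob m).Test, 0 ≤ f →
      0 ≤ I ((sob m).rkI (UUof m U) κ' a b b a f))
variable {a b c d : M →ₘ[m] ℝ}

include hC hB hG hU hχ hpos

/-- the sectional curvature functional of two gradients is a finite measure -/
theorem grad_measure (ha : a ∈ (sob m).Test) (hb : b ∈ (sob m).Test) :
    ∃ μ : Measure M, IsFiniteMeasure μ ∧ ∀ (f : M → ℝ) (F : M →ₘ[m] ℝ), CR f F →
      I ((sob m).rkI (UUof m U) κ' a b b a F) = ∫ x, f x ∂μ := by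
  have hUU := hU.isUU hC hB hG
  refine pos_measure hC hB hχ (Λ := fun F => I ((sob m).rkI (UUof m U) κ' a b b a F)) ?_
    (fun F hF hF0 => hpos a ha b hb F hF hF0) (cut_bdd hχ.cut hC hB hUU ha hb hb ha)
    (fun F hF => cut_rk hχ.cut hC hB hUU ha hb hb ha hF)
  intro F hF G hG t
  rw [hC.rkI_linφ t ha hb (hC.tW hF) (hC.tW hG),
    I_add (hC.rkI_mem hB hUU ha hb hb ha (hC.test_A hF))
      (mem_smul _ (hC.rkI_mem hB hUU ha hb hb ha (hC.test_A hG))), I_smul]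

theorem rr_sq_sm (ha : a ∈ (sob m).Test) (hb : b ∈ (sob m).Test) :
    IsSM (fun F : M →ₘ[m] ℝ => I ((sob m).rrI (UUof m U) a b b a F)) := by
  have hUU := hU.isUU hC hB hG
  obtain ⟨μ, h1, h2⟩ := grad_measure hC hB hG hU hχ hpos ha hb
  have s1 : IsSM (fun F : M →ₘ[m] ℝ => I ((sob m).rkI (UUof m U) κ' a b b a F)) :=
    ⟨μ, 0, h1, inferInstance, fun f F hF => by beta_reduce; rw [h2 f F hF]; simp⟩
  have hk : MemLp ((sob m).Γ a a * (sob m).Γ b b - (sob m).Γ a b * (sob m).Γ a b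
      : M →ₘ[m] ℝ) 1 m := mem_sub (mem_mul_top (hC.Γ_mem hB ha ha).2
        (hC.Γ_mem1 (hC.tW hb) (hC.tW hb))) (mem_mul_top (hC.Γ_mem hB ha hb).2
        (hC.Γ_mem1 (hC.tW ha) (hC.tW hb)))
  refine (s1.add ((IsSM.int hk).smul κ')).congr fun F hF => ?_
  have FA := hC.test_A hF
  unfold Calc.rkI
  rw [I_sub (hC.rrI_mem hB ha hb hb ha FA hUU.mem) (mem_smul _ (mem_mul_top FA.2 hk)), I_smul]
  ring

omit hχ hpos [ProperSpace M] [m.IsOpenPosMeasure] in
theorem curvLike [SigmaFinite m] {φ : M →ₘ[m] ℝ} (hφ : φ ∈ (sob m).Test) :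
    CurvLike (sob m).Test (fun a b c d => I ((sob m).rrI (UUof m U) a b c d φ)) := by
  have hUU := hU.isUU hC hB hG
  have φA := hC.test_A hφ
  have φW := hC.tW hφ
  have e0 : ∀ a b c d : M →ₘ[m] ℝ, (sob m).rrI (UUof m U) a b c d φ
      = (sob m).rkI (UUof m U) 0 a b c d φ := fun a b c d => by
    unfold Calc.rkI; rw [zero_smul, sub_zero]
  have mm : ∀ {a b c d : M →ₘ[m] ℝ}, a ∈ (sob m).Test → b ∈ (sob m).Test → c ∈ (sob m).Test →
      d ∈ (sob m).Test → MemLp ((sob m).rkI (UUof m U) 0 a b c d φ) 1 m :=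
    fun ha hb hc hd => hC.rkI_mem hB hUU ha hb hc hd φA
  refine ⟨fun a ha b hb => hC.test_add hB ha hb, ?_, ?_, ?_, ?_, ?_, ?_, ?_⟩
  · intro a ha a' ha' b hb c hc d hd
    have := hC.rkI_lin1 hB (κ' := 0) 1 hUU ha ha' hb hc hd φW
    rw [one_smul, one_smul] at this
    simp only [e0]
    rw [this, I_add (mm ha hb hc hd) (mm ha' hb hc hd)]
  · intro a ha a' ha' b hb c hc d hd
    have := hC.rkI_lin2 hB (κ' := 0) 1 hUU ha ha' hb hc hd φW
    rw [one_smul, one_smul] at this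
    simp only [e0]
    rw [this, I_add (mm hb ha hc hd) (mm hb ha' hc hd)]
  · intro a ha a' ha' b hb c hc d hd
    have := hC.rkI_lin3 hB (κ' := 0) 1 hUU ha ha' hb hc hd φW
    rw [one_smul, one_smul] at this
    simp only [e0]
    rw [this, I_add (mm hb hc ha hd) (mm hb hc ha' hd)]
  · intro a ha a' ha' b hb c hc d hd
    have := hC.rkI_lin4 hB (κ' := 0) (φ := φ) 1 hUU ha ha' hb hc hd
    rw [one_smul, one_smul] at this
    simp only [e0]
    rw [this, I_add (mm hb hc hd ha) (mm hb hc hd ha')]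
  · intro a ha b hb c hc d hd
    rw [rr_anti1 (UUof m U) a b c d φ, I_neg]
  · exact fun a ha b hb c hc d hd => rr_anti2 hC hB hG hU ha hb hc hd φA
  · exact fun a ha b hb c hc d hd => rr_bianchi hC hB hG hU ha hb hc hd φA

/-- the curvature functional of four gradients is a difference of two finite measures -/
theorem rr_sm [SigmaFinite m] (ha : a ∈ (sob m).Test) (hb : b ∈ (sob m).Test)
    (hc : c ∈ (sob m).Test) (hd : d ∈ (sob m).Test) :
    IsSM (fun F : M →ₘ[m] ℝ => I ((sob m).rrI (UUof m U) a b c d F)) := by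
  have s := fun {a b : M →ₘ[m] ℝ} (ha : a ∈ (sob m).Test) (hb : b ∈ (sob m).Test) =>
    rr_sq_sm hC hB hG hU hχ hpos ha hb
  have A := fun {a b : M →ₘ[m] ℝ} (ha : a ∈ (sob m).Test) (hb : b ∈ (sob m).Test) =>
    hC.test_add hB ha hb
  have T := fun {x z y : M →ₘ[m] ℝ} (hx : x ∈ (sob m).Test) (hz : z ∈ (sob m).Test)
    (hy : y ∈ (sob m).Test) => ((s (A hx hz) hy).sub (s hx hy)).sub (s hz hy)
  have h1 := T ha hd (A hb hc)
  have h2 := T ha hd hb
  have h3 := T ha hd hc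
  have h4 := T hb hd (A hc ha)
  have h5 := T hb hd hc
  have h6 := T hb hd ha
  refine ((((((h1.sub h2).sub h3).sub h4).add h5).add h6).smul 6⁻¹).congr fun F hF => ?_
  have := (curvLike hC hB hG hU hF).polar ha hb hc hd
  rw [← this]
  ring

end grad

end Vale.Agent.P233.H236
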