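import Mathlib.MeasureTheory.Integral.RieszMarkovKakutani.Real
import Mathlib.Analysis.Convex.Cone.Extension
import Mathlib.MeasureTheory.Integral.DominatedConvergence
import Mathlib.Tactic

/-!
# A positive functional on an algebra of continuous functions with cut-offs is a finite measure
-/

open MeasureTheory Filter Topology
open scoped CompactlySupported

namespace Vale.Agent.P233.H236

variable {M : Type*} [MetricSpace M] [ProperSpace M] [MeasurableSpace M] [BorelSpace M]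

/-- the data of an algebra of test functions with cut-offs -/
structure CutAlg (T : Set (M → ℝ)) (χ : ℕ → M → ℝ) : Prop where
  zero : (fun _ => 0) ∈ T
  add : ∀ f ∈ T, ∀ g ∈ T, (fun x => f x + g x) ∈ T
  smul : ∀ (c : ℝ), ∀ f ∈ T, (fun x => c * f x) ∈ T
  mul : ∀ f ∈ T, ∀ g ∈ T, (fun x => f x * g x) ∈ T
  cont : ∀ f ∈ T, Continuous f
  bdd : ∀ f ∈ T, ∃ K : ℝ, ∀ x, |f x| ≤ K
  mem : ∀ n, χ n ∈ T
  nonneg : ∀ n x, 0 ≤ χ n x
  le_one : ∀ n x, χ n x ≤ 1
  supp : ∀ n, HasCompactSupport (χ n)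
  one : ∀ x₀ : M, ∀ r : ℝ, ∃ n₀, ∀ n ≥ n₀, ∀ x, dist x x₀ ≤ r → χ n x = 1

theorem CutAlg.exists_measure {T : Set (M → ℝ)} {χ : ℕ → M → ℝ} (hT : CutAlg T χ)
    (Λ : (M → ℝ) → ℝ) (hadd : ∀ f ∈ T, ∀ g ∈ T, Λ (fun x => f x + g x) = Λ f + Λ g)
    (hsmul : ∀ (c : ℝ), ∀ f ∈ T, Λ (fun x => c * f x) = c * Λ f)
    (hpos : ∀ f ∈ T, (∀ x, 0 ≤ f x) → 0 ≤ Λ f) {C : ℝ} (hC : ∀ n, Λ (χ n) ≤ C)
    (hlim : ∀ f ∈ T, Tendsto (fun n => Λ (fun x => χ n x * f x)) atTop (𝓝 (Λ f))) :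
    ∃ μ : Measure M, IsFiniteMeasure μ ∧ ∀ f ∈ T, ∫ x, f x ∂μ = Λ f := by
  classical
  have hΛ0 : Λ (fun _ => 0) = 0 := by
    have := hsmul 0 _ hT.zero
    simpa using this
  -- the subspace of the compactly supported functions in `T`
  let V : Submodule ℝ C_c(M, ℝ) :=
    { carrier := {f | (f : M → ℝ) ∈ T}
      add_mem' := fun {f g} hf hg => hT.add _ hf _ hg
      zero_mem' := hT.zero
      smul_mem' := fun c f hf => hT.smul c _ hf }
  let L : V →ₗ[ℝ] ℝ :=
    { toFun := fun f => Λ (f : C_c(M, ℝ))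
      map_add' := fun f g => hadd _ f.2 _ g.2
      map_smul' := fun c f => hsmul c _ f.2 }
  let F : C_c(M, ℝ) →ₗ.[ℝ] ℝ := ⟨V, L⟩
  let s : PointedCone ℝ C_c(M, ℝ) :=
    { carrier := {f | ∀ x, 0 ≤ f x}
      add_mem' := fun {f g} hf hg x => add_nonneg (hf x) (hg x)
      zero_mem' := fun x => le_rfl
      smul_mem' := fun c f hf x => mul_nonneg c.2 (hf x) }
  obtain ⟨g, hg1, hg2⟩ := riesz_extension s F (fun f hf => hpos _ f.2 hf) (by
    intro y
    obtain ⟨K, hK⟩ : ∃ K : ℝ, ∀ x, |y x| ≤ K := by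
      obtain ⟨K, hK⟩ := y.hasCompactSupport.exists_bound_of_continuous y.continuous
      exact ⟨K, fun x => by simpa using hK x⟩
    rcases isEmpty_or_nonempty M with hM | ⟨⟨x₀⟩⟩
    · exact ⟨0, fun x => (hM.false x).elim⟩
    obtain ⟨r, hr⟩ := y.hasCompactSupport.isCompact.isBounded.subset_closedBall x₀
    obtain ⟨n₀, hn⟩ := hT.one x₀ r
    have hK0 : 0 ≤ K := (abs_nonneg _).trans (hK x₀)
    refine ⟨⟨K • ⟨⟨χ n₀, hT.cont _ (hT.mem n₀)⟩, hT.supp n₀⟩, hT.smul K _ (hT.mem n₀)⟩, ?_⟩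
    intro x
    change 0 ≤ K * χ n₀ x + y x
    by_cases hx : x ∈ tsupport y
    · rw [hn n₀ le_rfl x (hr hx), mul_one]
      have := (abs_le.1 (hK x)).1
      linarith
    · rw [image_eq_zero_of_notMem_tsupport hx, add_zero]
      exact mul_nonneg hK0 (hT.nonneg _ _))
  let G : C_c(M, ℝ) →ₚ[ℝ] ℝ := PositiveLinearMap.mk₀ g fun f hf => hg2 f fun x => hf x
  have hG : ∀ f : C_c(M, ℝ), (f : M → ℝ) ∈ T → G f = Λ f := fun f hf => hg1 ⟨f, hf⟩
  set μ := RealRMK.rieszMeasure G with hμ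
  have hint : ∀ f : M → ℝ, f ∈ T → HasCompactSupport f → ∫ x, f x ∂μ = Λ f := by
    intro f hf hfs
    have h1 := RealRMK.integral_rieszMeasure G ⟨⟨f, hT.cont f hf⟩, hfs⟩
    rw [hG _ hf] at h1
    exact h1
  have hfin : IsFiniteMeasure μ := by
    rcases isEmpty_or_nonempty M with hM | ⟨⟨x₀⟩⟩
    · exact ⟨by rw [Set.univ_eq_empty_iff.2 hM]; simp⟩
    have hb : ∀ n : ℕ, μ (Metric.closedBall x₀ n) ≤ ENNReal.ofReal C := by
      intro n
      obtain ⟨n₀, hn⟩ := hT.one x₀ n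
      have hi : Integrable (χ n₀) μ :=
        (hT.cont _ (hT.mem n₀)).integrable_of_hasCompactSupport (hT.supp n₀)
      have h1 : μ (Metric.closedBall x₀ n) ≤ ∫⁻ x, ENNReal.ofReal (χ n₀ x) ∂μ := by
        rw [← lintegral_indicator_one Metric.isClosed_closedBall.measurableSet]
        refine lintegral_mono fun x => ?_
        by_cases hx : x ∈ Metric.closedBall x₀ n
        · rw [Set.indicator_of_mem hx, hn n₀ le_rfl x hx]; simp
        · rw [Set.indicator_of_notMem hx]; exact bot_le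
      rw [← ofReal_integral_eq_lintegral_ofReal hi (Eventually.of_forall (hT.nonneg n₀)),
        hint _ (hT.mem n₀) (hT.supp n₀)] at h1
      exact h1.trans (ENNReal.ofReal_le_ofReal (hC n₀))
    refine ⟨?_⟩
    have h2 : Tendsto (fun n : ℕ => μ (Metric.closedBall x₀ n)) atTop
        (𝓝 (μ (⋃ n : ℕ, Metric.closedBall x₀ n))) := by
      refine tendsto_measure_iUnion_atTop fun a b hab => ?_
      exact Metric.closedBall_subset_closedBall (by exact_mod_cast hab)
    rw [Metric.iUnion_closedBall_nat] at h2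
    exact (le_of_tendsto' h2 hb).trans_lt ENNReal.ofReal_lt_top
  refine ⟨μ, hfin, fun f hf => ?_⟩
  have h1 := hlim f hf
  have h2 : Tendsto (fun n => ∫ x, χ n x * f x ∂μ) atTop (𝓝 (∫ x, f x ∂μ)) := by
    obtain ⟨K, hK⟩ := hT.bdd f hf
    refine tendsto_integral_of_dominated_convergence (fun _ => K) (fun n => ?_)
      (integrable_const K) (fun n => Eventually.of_forall fun x => ?_)
      (Eventually.of_forall fun x => ?_)
    · exact ((hT.cont _ (hT.mem n)).mul (hT.cont f hf)).aestronglyMeasurable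
    · rw [Real.norm_eq_abs, abs_mul, abs_of_nonneg (hT.nonneg n x)]
      calc χ n x * |f x| ≤ 1 * K :=
            mul_le_mul (hT.le_one n x) (hK x) (abs_nonneg _) zero_le_one
        _ = K := one_mul K
    · obtain ⟨n₀, hn⟩ := hT.one x 0
      refine tendsto_const_nhds.congr' ?_
      filter_upwards [eventually_ge_atTop n₀] with n hnn
      rw [hn n hnn x (by simp), one_mul]
  refine tendsto_nhds_unique h2 (h1.congr fun n => ?_)
  exact (hint _ (hT.mul _ (hT.mem n) _ hf) (hT.supp n).mul_right).symm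

end Vale.Agent.P233.H236
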