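import Mathlib.Tactic

/-!
# Polarization of curvature-like forms
-/

namespace Vale.Agent.P233.H236

/-- a curvature-like form on a set closed under addition -/
structure CurvLike {V : Type*} [Add V] (S : Set V) (F : V → V → V → V → ℝ) : Prop where
  add : ∀ a ∈ S, ∀ b ∈ S, a + b ∈ S
  l1 : ∀ a ∈ S, ∀ a' ∈ S, ∀ b ∈ S, ∀ c ∈ S, ∀ d ∈ S, F (a + a') b c d = F a b c d + F a' b c d
  l2 : ∀ a ∈ S, ∀ a' ∈ S, ∀ b ∈ S, ∀ c ∈ S, ∀ d ∈ S, F b (a + a') c d = F b a c d + F b a' c d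
  l3 : ∀ a ∈ S, ∀ a' ∈ S, ∀ b ∈ S, ∀ c ∈ S, ∀ d ∈ S, F b c (a + a') d = F b c a d + F b c a' d
  l4 : ∀ a ∈ S, ∀ a' ∈ S, ∀ b ∈ S, ∀ c ∈ S, ∀ d ∈ S, F b c d (a + a') = F b c d a + F b c d a'
  s1 : ∀ a ∈ S, ∀ b ∈ S, ∀ c ∈ S, ∀ d ∈ S, F a b c d = -F b a c d
  s2 : ∀ a ∈ S, ∀ b ∈ S, ∀ c ∈ S, ∀ d ∈ S, F a b c d + F a b d c = 0
  bi : ∀ a ∈ S, ∀ b ∈ S, ∀ c ∈ S, ∀ d ∈ S, F a b c d + F b c a d + F c a b d = 0

namespace CurvLike

variable {V : Type*} [Add V] {S : Set V} {F : V → V → V → V → ℝ} (h : CurvLike S F)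
include h

theorem pair {a b c d : V} (ha : a ∈ S) (hb : b ∈ S) (hc : c ∈ S) (hd : d ∈ S) :
    F a b c d = F c d a b := by
  have b1 := h.bi a ha b hb c hc d hd
  have b2 := h.bi b hb c hc d hd a ha
  have b3 := h.bi c hc d hd a ha b hb
  have b4 := h.bi d hd a ha b hb c hc
  have s11 := h.s1 b hb c hc a ha d hd
  have s12 := h.s1 c hc a ha b hb d hd
  have s13 := h.s1 c hc d hd b hb a ha
  have s14 := h.s1 d hd b hb c hc a ha
  have s15 := h.s1 d hd a ha c hc b hb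
  have s16 := h.s1 a ha c hc d hd b hb
  have s17 := h.s1 a ha b hb d hd c hc
  have s18 := h.s1 b hb d hd a ha c hc
  have t1 := h.s2 a ha b hb c hc d hd
  have t2 := h.s2 c hc d hd a ha b hb
  have t3 := h.s2 b hb c hc a ha d hd
  have t4 := h.s2 c hc a ha b hb d hd
  have t5 := h.s2 d hd b hb c hc a ha
  have t6 := h.s2 d hd a ha c hc b hb
  have t7 := h.s2 a ha c hc d hd b hb
  have t8 := h.s2 b hb d hd a ha c hc
  linarith

theorem P {x z y : V} (hx : x ∈ S) (hz : z ∈ S) (hy : y ∈ S) :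
    F (x + z) y y (x + z) - F x y y x - F z y y z = 2 * F x y y z := by
  have hxz := h.add x hx z hz
  rw [h.l1 x hx z hz y hy y hy _ hxz, h.l4 x hx z hz x hx y hy y hy,
    h.l4 x hx z hz z hz y hy y hy]
  have h1 := h.pair hz hy hy hx
  have h2 := h.s1 y hy x hx z hz y hy
  have h3 := h.s2 x hx y hy z hz y hy
  linarith

theorem Q {x z y w : V} (hx : x ∈ S) (hz : z ∈ S) (hy : y ∈ S) (hw : w ∈ S) :
    F x (y + w) (y + w) z - F x y y z - F x w w z = F x y w z + F x w y z := by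
  have hyw := h.add y hy w hw
  rw [h.l2 y hy w hw x hx _ hyw z hz, h.l3 y hy w hw x hx y hy z hz,
    h.l3 y hy w hw x hx w hw z hz]
  ring

theorem polar {x y w z : V} (hx : x ∈ S) (hy : y ∈ S) (hw : w ∈ S) (hz : z ∈ S) :
    6 * F x y w z =
      (F (x + z) (y + w) (y + w) (x + z) - F x (y + w) (y + w) x - F z (y + w) (y + w) z)
      - (F (x + z) y y (x + z) - F x y y x - F z y y z)
      - (F (x + z) w w (x + z) - F x w w x - F z w w z)
      - (F (y + z) (w + x) (w + x) (y + z) - F y (w + x) (w + x) y - F z (w + x) (w + x) z)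
      + (F (y + z) w w (y + z) - F y w w y - F z w w z)
      + (F (y + z) x x (y + z) - F y x x y - F z x x z) := by
  have e1 := h.P hx hz (h.add y hy w hw)
  have e2 := h.P hx hz hy
  have e3 := h.P hx hz hw
  have e4 := h.P hy hz (h.add w hw x hx)
  have e5 := h.P hy hz hw
  have e6 := h.P hy hz hx
  rw [e1, e2, e3, e4, e5, e6]
  have q1 := h.Q hx hz hy hw
  have q2 := h.Q hy hz hw hx
  have s := h.s1 y hy x hx w hw z hz
  have b := h.bi x hx y hy w hw z hz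
  have s' := h.s1 w hw x hx y hy z hz
  linarith

end CurvLike

end Vale.Agent.P233.H236
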