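import Vale.Agent.P233.Bd3.B10

/-!
# The symmetries of Gigli's curvature functional on gradients
-/

open MeasureTheory Filter Topology
open scoped ENNReal NNReal InnerProductSpace

namespace Vale.Agent.P233.H236

open Vale.Agent.P233

variable {M : Type*} [MeasurableSpace M] {m : Measure M} {C : Calc m}
variable {E : Type*} [NormedAddCommGroup E] [InnerProductSpace ℝ E] {Gr : (M →ₘ[m] ℝ) → M → E}
variable {U : (M →ₘ[m] ℝ) → (M →ₘ[m] ℝ) → M → E}

theorem UU_symm (hU : IsHU C Gr U) {a b c d : M →ₘ[m] ℝ} (ha : a ∈ C.Test) (hb : b ∈ C.Test)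
    (hc : c ∈ C.Test) (hd : d ∈ C.Test) : UUof m U a b c d = UUof m U c d a b := by
  rw [eq_iff_ae]
  filter_upwards [ipE_ae (hU.mem a ha b hb).1 (hU.mem c hc d hd).1,
    ipE_ae (hU.mem c hc d hd).1 (hU.mem a ha b hb).1] with x a1 a2
  unfold UUof
  rw [a1, a2, real_inner_comm]

variable (hC : IsGamma C) {κ : ℝ} (hB : C.BEi κ) (hG : IsGrad C Gr) (hU : IsHU C Gr U)
variable {φ a b c d : M →ₘ[m] ℝ}

include hC hB hG hU

theorem ip_grad [SigmaFinite m] (ha : a ∈ C.Test) (hb : b ∈ C.Test) (hc : c ∈ C.Test)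
    (hd : d ∈ C.Test) :
    ipE m (U b a) (Gr (C.Γ c d)) = UUof m U b a c d + UUof m U b a d c := by
  have hm : ∀ {b a : M →ₘ[m] ℝ}, b ∈ C.Test → a ∈ C.Test → AEStronglyMeasurable (U b a) m :=
    fun hb ha => (hU.mem _ hb _ ha).1
  have hcd := (hC.Γ_mem hB hc hd).1
  rw [eq_iff_ae]
  filter_upwards [ipE_ae (hm hb ha) (hG.mem _ hcd).1, hU.sym hC hB hG hc hd,
    add_ae (UUof m U b a c d) (UUof m U b a d c), ipE_ae (hm hb ha) (hm hc hd),
    ipE_ae (hm hb ha) (hm hd hc)] with x a2 a3 a5 a6 a7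
  rw [a2, ← a3, a5]
  unfold UUof
  rw [a6, a7, inner_add_right]

/-- the weak commutator identity -/
theorem comm_weak [SigmaFinite m] (ha : a ∈ C.Test) (hb : b ∈ C.Test) (hc : c ∈ C.Test)
    (hd : d ∈ C.Test) (hφ : φ ∈ C.A) :
    MemLp (-(C.De φ a * C.Γ b (C.Γ c d)) + C.De φ b * C.Γ a (C.Γ c d)
      - φ * (UUof m U b a c d + UUof m U b a d c - UUof m U a b c d - UUof m U a b d c)
        : M →ₘ[m] ℝ) 1 m ∧
    I (-(C.De φ a * C.Γ b (C.Γ c d)) + C.De φ b * C.Γ a (C.Γ c d)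
      - φ * (UUof m U b a c d + UUof m U b a d c - UUof m U a b c d - UUof m U a b d c)) = 0 := by
  have hcd := (hC.Γ_mem hB hc hd).1
  have hUU := hU.isUU hC hB hG
  have aW := hC.tW ha
  have bW := hC.tW hb
  have h1 := HW_eq_ip hC hB hG hU hb ha hφ hcd
  have h2 := HW_eq_ip hC hB hG hU ha hb hφ hcd
  rw [ip_grad hC hB hG hU ha hb hc hd] at h1
  rw [ip_grad hC hB hG hU hb ha hc hd] at h2
  unfold Calc.HW at h1 h2
  rw [hC.symm _ aW _ bW] at h2
  have hDa := hC.mem_De hφ ha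
  have hDb := hC.mem_De hφ hb
  have n1 : MemLp (C.De φ a * C.Γ b (C.Γ c d) : M →ₘ[m] ℝ) 1 m :=
    mem_mul_22 hDa (hC.Γ_mem2 bW (hC.test_Γ_top hb) hcd)
  have n2 : MemLp (C.De φ b * C.Γ a (C.Γ c d) : M →ₘ[m] ℝ) 1 m :=
    mem_mul_22 hDb (hC.Γ_mem2 aW (hC.test_Γ_top ha) hcd)
  have u1 := hUU.mem b hb a ha c hc d hd
  have u2 := hUU.mem b hb a ha d hd c hc
  have u3 := hUU.mem a ha b hb c hc d hd
  have u4 := hUU.mem a ha b hb d hd c hc
  have m1 : MemLp (φ * (UUof m U b a c d + UUof m U b a d c) : M →ₘ[m] ℝ) 1 m :=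
    mem_mul_top hφ.2 (mem_add u1 u2)
  have m2 : MemLp (φ * (UUof m U a b c d + UUof m U a b d c) : M →ₘ[m] ℝ) 1 m :=
    mem_mul_top hφ.2 (mem_add u3 u4)
  have e : -(C.De φ a * C.Γ b (C.Γ c d)) + C.De φ b * C.Γ a (C.Γ c d)
      - φ * (UUof m U b a c d + UUof m U b a d c - UUof m U a b c d - UUof m U a b d c)
      = C.De φ b * C.Γ a (C.Γ c d) - C.De φ a * C.Γ b (C.Γ c d)
        - (φ * (UUof m U b a c d + UUof m U b a d c)
          - φ * (UUof m U a b c d + UUof m U a b d c)) := by ring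
  rw [e]
  refine ⟨mem_sub (mem_sub n2 n1) (mem_sub m1 m2), ?_⟩
  rw [I_sub (mem_sub n2 n1) (mem_sub m1 m2), I_sub n2 n1, I_sub m1 m2]
  rw [mul_comm (C.Γ b (C.Γ c d)) (C.De φ a), mul_comm (C.Γ a (C.Γ c d)) (C.De φ b)] at h1
  rw [mul_comm (C.Γ b (C.Γ c d)) (C.De φ a), mul_comm (C.Γ a (C.Γ c d)) (C.De φ b)] at h2
  linarith

/-- antisymmetry in the last two arguments -/
theorem rr_anti2 [SigmaFinite m] (ha : a ∈ C.Test) (hb : b ∈ C.Test) (hc : c ∈ C.Test)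
    (hd : d ∈ C.Test) (hφ : φ ∈ C.A) :
    I (C.rrI (UUof m U) a b c d φ) + I (C.rrI (UUof m U) a b d c φ) = 0 := by
  have hUU := hU.isUU hC hB hG
  have r1 := hC.rrI_mem hB ha hb hc hd hφ hUU.mem
  have r2 := hC.rrI_mem hB ha hb hd hc hφ hUU.mem
  rw [← I_add r1 r2, ← (comm_weak hC hB hG hU ha hb hc hd hφ).2]
  congr 1
  have aW := hC.tW ha
  have bW := hC.tW hb
  have cW := hC.tW hc
  have dW := hC.tW hd
  unfold Calc.rrI Calc.hess
  rw [UU_symm hU hd ha hc hb, UU_symm hU hd hb hc ha, hC.symm _ dW _ cW, hC.symm _ bW _ dW,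
    hC.symm _ aW _ dW, hC.symm _ aW _ cW, hC.symm _ bW _ cW]
  algebra

omit hC hB hG hU [NormedAddCommGroup E] [InnerProductSpace ℝ E] in
/-- antisymmetry in the first two arguments -/
theorem rr_anti1 (UU : UUT m) (a b c d φ : M →ₘ[m] ℝ) :
    C.rrI UU a b c d φ = -C.rrI UU b a c d φ := by
  unfold Calc.rrI
  ring

/-- the first Bianchi identity -/
theorem rr_bianchi [SigmaFinite m] (ha : a ∈ C.Test) (hb : b ∈ C.Test) (hc : c ∈ C.Test)
    (hd : d ∈ C.Test) (hφ : φ ∈ C.A) :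
    I (C.rrI (UUof m U) a b c d φ) + I (C.rrI (UUof m U) b c a d φ)
      + I (C.rrI (UUof m U) c a b d φ) = 0 := by
  have hUU := hU.isUU hC hB hG
  have r1 := hC.rrI_mem hB ha hb hc hd hφ hUU.mem
  have r2 := hC.rrI_mem hB hb hc ha hd hφ hUU.mem
  have r3 := hC.rrI_mem hB hc ha hb hd hφ hUU.mem
  obtain ⟨k1, e1⟩ := comm_weak hC hB hG hU ha hb hc hd hφ
  obtain ⟨k2, e2⟩ := comm_weak hC hB hG hU hb hc ha hd hφ
  obtain ⟨k3, e3⟩ := comm_weak hC hB hG hU hc ha hb hd hφ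
  rw [← I_add r1 r2, ← I_add (mem_add r1 r2) r3]
  have e4 : I ((-(C.De φ a * C.Γ b (C.Γ c d)) + C.De φ b * C.Γ a (C.Γ c d)
      - φ * (UUof m U b a c d + UUof m U b a d c - UUof m U a b c d - UUof m U a b d c))
      + (-(C.De φ b * C.Γ c (C.Γ a d)) + C.De φ c * C.Γ b (C.Γ a d)
      - φ * (UUof m U c b a d + UUof m U c b d a - UUof m U b c a d - UUof m U b c d a))
      + (-(C.De φ c * C.Γ a (C.Γ b d)) + C.De φ a * C.Γ c (C.Γ b d)
      - φ * (UUof m U a c b d + UUof m U a c d b - UUof m U c a b d - UUof m U c a d b))) = 0 := by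
    rw [I_add (mem_add k1 k2) k3, I_add k1 k2, e1, e2, e3]; simp
  rw [← e4]
  congr 1
  have aW := hC.tW ha
  have bW := hC.tW hb
  have cW := hC.tW hc
  have dW := hC.tW hd
  unfold Calc.rrI Calc.hess
  rw [UU_symm hU hd ha hc hb, UU_symm hU hd hb hc ha, UU_symm hU hd hb ha hc,
    UU_symm hU hd hc ha hb, UU_symm hU hd hc hb ha, UU_symm hU hd ha hb hc,
    hC.symm _ bW _ aW, hC.symm _ cW _ aW, hC.symm _ cW _ bW]
  algebra

end Vale.Agent.P233.H236
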