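import Vale.Agent.P233.Bd3.B10
import Vale.Agent.P233.H236.Meas
import Vale.Agent.P233.H236.Cut
import Vale.Agent.P233.H236.Sym
import Vale.Agent.P233.H236.Polar
import Vale.Agent.P233.H236.Glue

/-!
# Functionals on test functions that are differences of finite measures
-/

open MeasureTheory Filter Topology
open scoped ENNReal NNReal InnerProductSpace

namespace Vale.Agent.P233.H236

open Vale.Agent.P233

set_option linter.unusedSectionVars false

section dens

variable {M : Type*} [TopologicalSpace M] [MeasurableSpace M] [BorelSpace M]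

theorem exists_dens (μ : Measure M) {k : M → ℝ} (hk : Integrable k μ) :
    ∃ μ₁ μ₂ : Measure M, IsFiniteMeasure μ₁ ∧ IsFiniteMeasure μ₂ ∧ ∀ f : M → ℝ, Continuous f →
      (∃ K : ℝ, ∀ x, |f x| ≤ K) → ∫ x, f x * k x ∂μ = ∫ x, f x ∂μ₁ - ∫ x, f x ∂μ₂ := by
  have h1 : AEMeasurable (fun x => ENNReal.ofReal (k x)) μ := hk.1.aemeasurable.ennreal_ofReal
  have h2 : AEMeasurable (fun x => ENNReal.ofReal (-k x)) μ := hk.neg.1.aemeasurable.ennreal_ofReal
  refine ⟨μ.withDensity fun x => ENNReal.ofReal (k x), μ.withDensity fun x => ENNReal.ofReal (-k x),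
    ⟨?_⟩, ⟨?_⟩, ?_⟩
  · rw [withDensity_apply _ MeasurableSet.univ, Measure.restrict_univ]
    exact hk.lintegral_lt_top
  · rw [withDensity_apply _ MeasurableSet.univ, Measure.restrict_univ]
    exact hk.neg.lintegral_lt_top
  · rintro f hf ⟨K, hK⟩
    rw [integral_withDensity_eq_integral_toReal_smul₀ h1 (by simp),
      integral_withDensity_eq_integral_toReal_smul₀ h2 (by simp), ← integral_sub]
    · refine integral_congr_ae (Eventually.of_forall fun x => ?_)
      simp only [smul_eq_mul, ENNReal.toReal_ofReal']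
      rcases le_total 0 (k x) with h | h
      · rw [max_eq_left h, max_eq_right (neg_nonpos.2 h)]; ring
      · rw [max_eq_right h, max_eq_left (neg_nonneg.2 h)]; ring
    · have h3 : Integrable (fun x => max (k x) 0) μ := hk.pos_part
      refine (h3.bdd_mul hf.aestronglyMeasurable (c := K)
        (Eventually.of_forall fun x => by rw [Real.norm_eq_abs]; exact hK x)).congr
        (Eventually.of_forall fun x => ?_)
      simp only [smul_eq_mul, ENNReal.toReal_ofReal']
      ring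
    · have h3 : Integrable (fun x => max (-k x) 0) μ := hk.neg_part
      refine (h3.bdd_mul hf.aestronglyMeasurable (c := K)
        (Eventually.of_forall fun x => by rw [Real.norm_eq_abs]; exact hK x)).congr
        (Eventually.of_forall fun x => ?_)
      simp only [smul_eq_mul, ENNReal.toReal_ofReal']
      ring

end dens

section sm

variable {M : Type*} [MetricSpace M] [MeasurableSpace M] [BorelSpace M]
  [SecondCountableTopology M] {m : Measure M}

/-- `f` is a continuous representative of the test function `F` -/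
def CR (f : M → ℝ) (F : M →ₘ[m] ℝ) : Prop := Continuous f ∧ f =ᵐ[m] F ∧ F ∈ (sob m).Test

/-- `L` is a difference of two finite measures on test functions -/
def IsSM (L : (M →ₘ[m] ℝ) → ℝ) : Prop :=
  ∃ μ ν : Measure M, IsFiniteMeasure μ ∧ IsFiniteMeasure ν ∧
    ∀ (f : M → ℝ) (F : M →ₘ[m] ℝ), CR f F → L F = ∫ x, f x ∂μ - ∫ x, f x ∂ν

theorem ae_open [m.IsOpenPosMeasure] {O : Set M} (hO : IsOpen O) {u v : M → ℝ}
    (hu : Continuous u) (hv : Continuous v) (h : ∀ᵐ x ∂m, x ∈ O → u x = v x) :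
    ∀ x ∈ O, u x = v x := by
  have h1 : m (O ∩ {x | u x ≠ v x}) = 0 := by
    rw [ae_iff] at h
    refine measure_mono_null (fun x hx => ?_) h
    simp only [Set.mem_ofPred_eq, Classical.not_imp]
    exact hx
  have h2 : IsOpen (O ∩ {x | u x ≠ v x}) := hO.inter (isOpen_ne_fun hu hv)
  have h3 := (h2.measure_eq_zero_iff m).1 h1
  intro x hx
  by_contra hne
  have : x ∈ O ∩ {x | u x ≠ v x} := ⟨hx, hne⟩
  rw [h3] at this
  exact this

theorem ae_le [m.IsOpenPosMeasure] {u v : M → ℝ} (hu : Continuous u) (hv : Continuous v)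
    (h : ∀ᵐ x ∂m, u x ≤ v x) : ∀ x, u x ≤ v x := by
  have h1 : m {x | v x < u x} = 0 := by
    rw [ae_iff] at h
    simpa only [not_le] using h
  have h3 := ((isOpen_lt hv hu).measure_eq_zero_iff m).1 h1
  intro x
  by_contra hne
  have : x ∈ {x | v x < u x} := not_le.1 hne
  rw [h3] at this
  exact this

/-- the continuous representative of a test function is bounded -/
theorem CR.bdd [m.IsOpenPosMeasure] {f : M → ℝ} {F : M →ₘ[m] ℝ} (h : CR f F) :
    ∃ K : ℝ, ∀ x, |f x| ≤ K := by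
  obtain ⟨⟨u, ⟨L, hL⟩, ⟨K, hK⟩, hu⟩, -⟩ := h.2.2
  have h1 : ∀ x ∈ (Set.univ : Set M), f x = u x := by
    refine ae_open (m := m) isOpen_univ h.1 hL.continuous ?_
    filter_upwards [h.2.1, hu] with x h1 h2 _
    rw [h1, h2]
  exact ⟨K, fun x => by rw [h1 x trivial]; exact hK x⟩

theorem exists_CR {F : M →ₘ[m] ℝ} (h : F ∈ (sob m).Test) : ∃ f, CR f F := by
  obtain ⟨⟨u, ⟨L, hL⟩, -, hu⟩, -⟩ := id h
  exact ⟨u, hL.continuous, hu.symm, h⟩

variable {L L' : (M →ₘ[m] ℝ) → ℝ}

theorem IsSM.congr (h : IsSM L) (e : ∀ F ∈ (sob m).Test, L' F = L F) : IsSM L' := by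
  obtain ⟨μ, ν, h1, h2, h3⟩ := h
  exact ⟨μ, ν, h1, h2, fun f F hF => by rw [e F hF.2.2, h3 f F hF]⟩

theorem CR.int [m.IsOpenPosMeasure] {f : M → ℝ} {F : M →ₘ[m] ℝ} (h : CR f F) (μ : Measure M)
    [IsFiniteMeasure μ] : Integrable f μ := by
  obtain ⟨K, hK⟩ := h.bdd
  exact Integrable.of_bound h.1.aestronglyMeasurable K
    (Eventually.of_forall fun x => by rw [Real.norm_eq_abs]; exact hK x)

theorem IsSM.add [m.IsOpenPosMeasure] (h : IsSM L) (h' : IsSM L') : IsSM (fun F => L F + L' F) := by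
  obtain ⟨μ, ν, h1, h2, h3⟩ := h
  obtain ⟨μ', ν', h1', h2', h3'⟩ := h'
  refine ⟨μ + μ', ν + ν', inferInstance, inferInstance, fun f F hF => ?_⟩
  beta_reduce
  rw [h3 f F hF, h3' f F hF, integral_add_measure (hF.int μ) (hF.int μ'),
    integral_add_measure (hF.int ν) (hF.int ν')]
  ring

theorem IsSM.neg (h : IsSM L) : IsSM (fun F => -L F) := by
  obtain ⟨μ, ν, h1, h2, h3⟩ := h
  exact ⟨ν, μ, h2, h1, fun f F hF => by beta_reduce; rw [h3 f F hF]; ring⟩

theorem IsSM.sub [m.IsOpenPosMeasure] (h : IsSM L) (h' : IsSM L') : IsSM (fun F => L F - L' F) :=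
  (h.add h'.neg).congr fun F _ => by ring

theorem IsSM.zero : IsSM (m := m) (fun _ => 0) :=
  ⟨0, 0, inferInstance, inferInstance, fun f F _ => by simp⟩

theorem IsSM.smul_nonneg (h : IsSM L) (c : ℝ≥0) : IsSM (fun F => c * L F) := by
  obtain ⟨μ, ν, h1, h2, h3⟩ := h
  refine ⟨c • μ, c • ν, inferInstance, inferInstance, fun f F hF => ?_⟩
  beta_reduce
  rw [h3 f F hF, integral_smul_nnreal_measure, integral_smul_nnreal_measure]
  simp only [NNReal.smul_def, smul_eq_mul]
  ring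

theorem IsSM.smul (h : IsSM L) (c : ℝ) : IsSM (fun F => c * L F) := by
  rcases le_total 0 c with hc | hc
  · exact (h.smul_nonneg ⟨c, hc⟩).congr fun F _ => rfl
  · refine (h.neg.smul_nonneg ⟨-c, neg_nonneg.2 hc⟩).congr fun F _ => ?_
    show c * L F = (-c) * (-L F)
    ring

theorem IsSM.sum [m.IsOpenPosMeasure] {α : Type*} (X : List α) {L : α → (M →ₘ[m] ℝ) → ℝ}
    (h : ∀ p ∈ X, IsSM (L p)) : IsSM (fun F => (X.map fun p => L p F).sum) := by
  induction X with
  | nil => simpa using IsSM.zero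
  | cons p X ih =>
    simp only [List.map_cons, List.sum_cons]
    exact (h p (by simp)).add (ih fun q hq => h q (by simp [hq]))

theorem IsSM.int [m.IsOpenPosMeasure] {k : M →ₘ[m] ℝ} (hk : MemLp k 1 m) :
    IsSM (fun F => I (F * k)) := by
  obtain ⟨μ, ν, h1, h2, h3⟩ := exists_dens m (int_of_mem hk)
  refine ⟨μ, ν, h1, h2, fun f F hF => ?_⟩
  rw [← h3 f hF.1 hF.bdd]
  refine integral_congr_ae ?_
  filter_upwards [mul_ae F k, hF.2.1] with x a1 a2
  rw [a1, a2]

omit [BorelSpace M] [SecondCountableTopology M] in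
theorem CR.mul {κ : ℝ} (hC : IsGamma (sob m)) (hB : (sob m).BEi κ) {f g : M → ℝ}
    {F G : M →ₘ[m] ℝ} (h : CR f F) (h' : CR g G) : CR (fun x => f x * g x) (F * G) := by
  refine ⟨h.1.mul h'.1, ?_, hC.test_mul hB h.2.2 h'.2.2⟩
  filter_upwards [h.2.1, h'.2.1, mul_ae F G] with x a1 a2 a3
  rw [a1, a2, a3]

theorem IsSM.mul [m.IsOpenPosMeasure] {κ : ℝ} (hC : IsGamma (sob m)) (hB : (sob m).BEi κ)
    (h : IsSM L) {w : M →ₘ[m] ℝ} (hw : w ∈ (sob m).Test) : IsSM (fun F => L (F * w)) := by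
  obtain ⟨μ, ν, h1, h2, h3⟩ := h
  obtain ⟨v, hv⟩ := exists_CR hw
  obtain ⟨μ₁, μ₂, i1, i2, i3⟩ := exists_dens μ (hv.int μ)
  obtain ⟨ν₁, ν₂, j1, j2, j3⟩ := exists_dens ν (hv.int ν)
  refine ⟨μ₁ + ν₂, μ₂ + ν₁, inferInstance, inferInstance, fun f F hF => ?_⟩
  beta_reduce
  rw [h3 _ _ (hF.mul hC hB hv), i3 f hF.1 hF.bdd, j3 f hF.1 hF.bdd,
    integral_add_measure (hF.int _) (hF.int _), integral_add_measure (hF.int _) (hF.int _)]
  ring

end sm

end Vale.Agent.P233.H236
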