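import Vale.Agent.P233.H236.Defs
import Vale.Agent.P233.H236.Dens
import Vale.Agent.P233.H236.Field

/-!
# Signed measures
-/

open MeasureTheory Filter Topology
open scoped ENNReal NNReal InnerProductSpace

universe u

namespace Vale.Agent.P233.H236

open Vale.Agent.P233

set_option linter.unusedSectionVars false

variable {M : Type u} [MetricSpace M] [MeasurableSpace M] [BorelSpace M]
  [SecondCountableTopology M] {m : Measure M}

theorem jordan_eq {M : Type*} [MeasurableSpace M] (μ ν : Measure M) [IsFiniteMeasure μ]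
    [IsFiniteMeasure ν] (ρ : SignedMeasure M) (h : ρ = μ.toSignedMeasure - ν.toSignedMeasure) :
    ρ.toJordanDecomposition.posPart + ν = μ + ρ.toJordanDecomposition.negPart := by
  have h1 := ρ.toSignedMeasure_toJordanDecomposition
  unfold JordanDecomposition.toSignedMeasure at h1
  rw [← Measure.toSignedMeasure_eq_toSignedMeasure_iff, Measure.toSignedMeasure_add,
    Measure.toSignedMeasure_add]
  rw [h] at h1 ⊢
  rw [sub_eq_sub_iff_add_eq_add] at h1
  exact h1

theorem sInt_eq [m.IsOpenPosMeasure] (μ ν : Measure M) [IsFiniteMeasure μ] [IsFiniteMeasure ν]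
    {f : M → ℝ} {F : M →ₘ[m] ℝ} (hf : CR f F) :
    T.sInt (μ.toSignedMeasure - ν.toSignedMeasure) f = ∫ x, f x ∂μ - ∫ x, f x ∂ν := by
  have h := jordan_eq μ ν _ rfl
  have h1 := congrArg (fun ρ : Measure M => ∫ x, f x ∂ρ) h
  beta_reduce at h1
  rw [integral_add_measure (hf.int _) (hf.int _), integral_add_measure (hf.int _) (hf.int _)] at h1
  unfold T.sInt
  linarith

theorem signed_det [m.IsOpenPosMeasure]
    (hfin : ∀ (x : M) (r : ℝ), m (Metric.ball x r) < ∞) (hC : IsGamma (sob m))
    {K N : ℝ} (hN : 0 < N) (hBN : (sob m).BE K N) {ρ σ : SignedMeasure M}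
    (h : ∀ (f : M → ℝ) (F : M →ₘ[m] ℝ), CR f F → T.sInt ρ f = T.sInt σ f) : ρ = σ := by
  have h1 : ρ.toJordanDecomposition.posPart + σ.toJordanDecomposition.negPart
      = σ.toJordanDecomposition.posPart + ρ.toJordanDecomposition.negPart := by
    refine test_det hfin hC hN hBN fun f F hf => ?_
    rw [integral_add_measure (hf.int _) (hf.int _), integral_add_measure (hf.int _) (hf.int _)]
    have := h f F hf
    unfold T.sInt at this
    linarith
  rw [← ρ.toSignedMeasure_toJordanDecomposition, ← σ.toSignedMeasure_toJordanDecomposition]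
  unfold JordanDecomposition.toSignedMeasure
  rw [← Measure.toSignedMeasure_eq_toSignedMeasure_iff, Measure.toSignedMeasure_add,
    Measure.toSignedMeasure_add] at h1
  rw [sub_eq_sub_iff_add_eq_add]
  exact h1

theorem IsSM.exists_unique [m.IsOpenPosMeasure]
    (hfin : ∀ (x : M) (r : ℝ), m (Metric.ball x r) < ∞) (hC : IsGamma (sob m))
    {K N : ℝ} (hN : 0 < N) (hBN : (sob m).BE K N) {L : (M →ₘ[m] ℝ) → ℝ} (h : IsSM L) :
    ∃! ρ : SignedMeasure M, ∀ (f : M → ℝ) (F : M →ₘ[m] ℝ), CR f F → L F = T.sInt ρ f := by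
  obtain ⟨μ, ν, h1, h2, h3⟩ := h
  refine ⟨μ.toSignedMeasure - ν.toSignedMeasure, fun f F hf => ?_, fun σ hσ => ?_⟩
  · rw [sInt_eq μ ν hf, h3 f F hf]
  · refine signed_det hfin hC hN hBN fun f F hf => ?_
    rw [← hσ f F hf, h3 f F hf, sInt_eq μ ν hf]

theorem exists_dens' {M : Type*} [TopologicalSpace M] [MeasurableSpace M] [BorelSpace M]
    (μ : Measure M) {k : M → ℝ} (hk : Integrable k μ) :
    ∃ μ₁ μ₂ : Measure M, IsFiniteMeasure μ₁ ∧ IsFiniteMeasure μ₂ ∧ (∀ f : M → ℝ, Continuous f →
      (∃ K : ℝ, ∀ x, |f x| ≤ K) → ∫ x, f x * k x ∂μ = ∫ x, f x ∂μ₁ - ∫ x, f x ∂μ₂) ∧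
      ∀ s, MeasurableSet s → ∫ x in s, k x ∂μ = μ₁.real s - μ₂.real s := by
  have h1 : AEMeasurable (fun x => ENNReal.ofReal (k x)) μ := hk.1.aemeasurable.ennreal_ofReal
  have h2 : AEMeasurable (fun x => ENNReal.ofReal (-k x)) μ := hk.neg.1.aemeasurable.ennreal_ofReal
  refine ⟨μ.withDensity fun x => ENNReal.ofReal (k x), μ.withDensity fun x => ENNReal.ofReal (-k x),
    ⟨?_⟩, ⟨?_⟩, ?_, ?_⟩
  · rw [withDensity_apply _ MeasurableSet.univ, Measure.restrict_univ]
    exact hk.lintegral_lt_top
  · rw [withDensity_apply _ MeasurableSet.univ, Measure.restrict_univ]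
    exact hk.neg.lintegral_lt_top
  · rintro f hf ⟨K, hK⟩
    rw [integral_withDensity_eq_integral_toReal_smul₀ h1 (by simp),
      integral_withDensity_eq_integral_toReal_smul₀ h2 (by simp), ← integral_sub]
    · refine integral_congr_ae (Eventually.of_forall fun x => ?_)
      simp only [smul_eq_mul, ENNReal.toReal_ofReal']
      rcases le_total 0 (k x) with h | h
      · rw [max_eq_left h, max_eq_right (neg_nonpos.2 h)]; ring
      · rw [max_eq_right h, max_eq_left (neg_nonneg.2 h)]; ring
    · have h3 : Integrable (fun x => max (k x) 0) μ := hk.pos_part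
      refine (h3.bdd_mul hf.aestronglyMeasurable (c := K)
        (Eventually.of_forall fun x => by rw [Real.norm_eq_abs]; exact hK x)).congr
        (Eventually.of_forall fun x => ?_)
      simp only [smul_eq_mul, ENNReal.toReal_ofReal']
      ring
    · have h3 : Integrable (fun x => max (-k x) 0) μ := hk.neg_part
      refine (h3.bdd_mul hf.aestronglyMeasurable (c := K)
        (Eventually.of_forall fun x => by rw [Real.norm_eq_abs]; exact hK x)).congr
        (Eventually.of_forall fun x => ?_)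
      simp only [smul_eq_mul, ENNReal.toReal_ofReal']
      ring
  · intro s hs
    rw [integral_eq_lintegral_pos_part_sub_lintegral_neg_part hk.restrict]
    simp only [Measure.real, withDensity_apply _ hs]

/-- a curvature measure of the type `R(X,Y,Y,X)` is bounded below -/
theorem sec_bound [m.IsOpenPosMeasure]
    (hfin : ∀ (x : M) (r : ℝ), m (Metric.ball x r) < ∞) (hC : IsGamma (sob m))
    {K N κ : ℝ} (hN : 0 < N) (hBN : (sob m).BE K N) {L : (M →ₘ[m] ℝ) → ℝ} {k : M →ₘ[m] ℝ}
    (hk : MemLp k 1 m) {μ : Measure M} [IsFiniteMeasure μ]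
    (h : ∀ (f : M → ℝ) (F : M →ₘ[m] ℝ), CR f F → L F = ∫ x, f x ∂μ + κ * I (F * k))
    {ρ : SignedMeasure M} (hρ : ∀ (f : M → ℝ) (F : M →ₘ[m] ℝ), CR f F → L F = T.sInt ρ f)
    {s : Set M} (hs : MeasurableSet s) : κ * ∫ x in s, k x ∂m ≤ ρ s := by
  obtain ⟨μ₁, μ₂, i1, i2, h3, h4⟩ := exists_dens' m ((int_of_mem hk).const_mul κ)
  have e : ρ = (μ + μ₁).toSignedMeasure - μ₂.toSignedMeasure := by
    refine signed_det hfin hC hN hBN fun f F hf => ?_
    rw [← hρ f F hf, h f F hf, sInt_eq _ _ hf, integral_add_measure (hf.int _) (hf.int _)]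
    have := h3 f hf.1 hf.bdd
    have e2 : ∫ x, f x * (κ * k x) ∂m = κ * I (F * k) := by
      unfold I
      rw [← integral_const_mul]
      refine integral_congr_ae ?_
      filter_upwards [mul_ae F k, hf.2.1] with x a1 a2
      rw [a1, a2]; ring
    rw [e2] at this
    linarith
  rw [e, ← integral_const_mul, h4 s hs, Measure.toSignedMeasure_add]
  simp only [VectorMeasure.sub_apply, VectorMeasure.add_apply,
    Measure.toSignedMeasure_apply_measurable hs]
  have : 0 ≤ μ.real s := measureReal_nonneg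
  linarith

end Vale.Agent.P233.H236
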